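import Vale.Agent.P338.R3.H527.Word

/-!
P338-D, module WORD: the composition over a valid slide program of the slides on all chunks is the
zeta transform on all active bits.
-/

namespace Vale.Agent.P338.R3.H527

open Vale.Agent.P338.R2.H110 (cur nxt slideAll ok fw ins tab tab_congr)

section Comp

variable {G : Type*} [AddCommGroup G]

theorem nxg_cgr {C : List Bool → (List Bool → G) → List Bool → G} (hC : Cgr C) {m : ℕ} :
    ∀ (ls : List Bool) (r : ℕ) (f g : List Bool → G), (∀ w, w.length = ls.length → f w = g w) →
      ∀ w, w.length = ls.length → nxg C m ls r f w = nxg C m ls r g w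
  | [], r, f, g, h, w, hw => by
    obtain rfl : w = [] := List.length_eq_zero_iff.1 hw
    simp [nxg, h]
  | _ :: _, r, f, g, h, [], hw => by simp at hw
  | false :: ls, r, f, g, h, v :: w, hw => by
    rw [nxg, nxg]
    exact nxg_cgr hC ls r _ _ (fun w hw' => h _ (by simpa using hw')) w (by simpa using hw)
  | true :: ls, r, f, g, h, v :: w, hw => by
    rw [nxg, nxg]
    have hw' : w.length = ls.length := by simpa using hw
    have hf : ∀ w, w.length = ls.length → f (v :: w) = g (v :: w) := fun w hw' =>
      h _ (by simpa using hw')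
    by_cases hr : r = 1
    · rw [if_pos hr, if_pos hr]
      exact nxg_cgr hC ls m _ _ (hC ls _ _ hf) w hw'
    · rw [if_neg hr, if_neg hr]
      exact nxg_cgr hC ls (r - 1) _ _ hf w hw'

/-- slide on the present chunk commutes with chunk operators on the later chunks -/
theorem cu_nxg {C : List Bool → (List Bool → G) → List Bool → G} (hC : Lin C) {m : ℕ} (s : Bool)
    {a b ls : List Bool} (hab : a.length = b.length) (ha : a ≠ []) (hm : a.length = m)
    (ho : ok m ls m) (f : List Bool → G) (w : List Bool) (hw : w.length = ls.length) :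
    nxg C m ls m (cu (opS s) a b ls f) w = cu (opS s) a b ls (nxg C m ls m f) w := by
  subst hm
  rcases ok_count ls _ ho le_rfl with h1 | h1
  · have hb : b ≠ [] := by
      intro hb; rw [hb, List.length_nil, List.length_eq_zero_iff] at hab; exact ha hab
    have e : cu (opS s) a b ls f = f := by
      funext w; rw [cu, mat_of_count_zero ls b w hb h1.2, cond_false]
    rw [e, cu, mat_of_count_zero ls b w hb h1.2, cond_false]
  · exact nxg_cu hC s ls a b f f w hab ha h1 hw

theorem nxg_comp {C : List Bool → (List Bool → G) → List Bool → G} (hC : Lin C) (hC' : Cgr C)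
    {m : ℕ} (s : Bool) {a b : List Bool} (hab : a.length = b.length) (ha : a ≠ [])
    (hm : a.length = m) :
    ∀ (ls : List Bool) (r : ℕ) (f : List Bool → G), ok m ls r →
      ∀ w, w.length = ls.length →
      nxg (cu (opS s) a b) m ls r (nxg C m ls r f) w =
        nxg (fun ls f => cu (opS s) a b ls (C ls f)) m ls r f w
  | [], r, f, _, w, hw => by
    obtain rfl : w = [] := List.length_eq_zero_iff.1 hw
    simp [nxg]
  | _ :: _, r, f, _, [], hw => by simp at hw
  | false :: ls, r, f, ho, v :: w, hw => by
    rw [nxg, nxg]
    exact nxg_comp hC hC' s hab ha hm ls r _ ho w (by simpa using hw)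
  | true :: ls, r, f, ho, v :: w, hw => by
    have hw' : w.length = ls.length := by simpa using hw
    by_cases hr : r = 1
    · have ho' : ok m ls m := by simpa [ok, hr] using ho
      simp only [nxg, if_pos hr]
      rw [← nxg_comp hC hC' s hab ha hm ls m _ ho' w hw']
      refine nxg_cgr (cu_cgr _ _ _) ls m _ _ (fun w hw => ?_) w hw'
      exact (cu_nxg hC s hab ha hm ho' _ w hw).symm
    · have ho' : ok m ls (r - 1) := by simpa [ok, hr] using ho
      simp only [nxg, if_neg hr]
      exact nxg_comp hC hC' s hab ha hm ls (r - 1) _ ho' w hw'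

theorem allg_comp {C : List Bool → (List Bool → G) → List Bool → G} (hC : Lin C) (hC' : Cgr C)
    {m : ℕ} (s : Bool) {a b : List Bool} (hab : a.length = b.length) (ha : a ≠ [])
    (hm : a.length = m) (ls : List Bool) (f : List Bool → G) (ho : ok m ls m) (w : List Bool)
    (hw : w.length = ls.length) :
    allg (cu (opS s) a b) m ls (allg C m ls f) w =
      allg (fun ls f => cu (opS s) a b ls (C ls f)) m ls f w := by
  rw [allg, allg, allg, ← nxg_comp hC hC' s hab ha hm ls m _ ho w hw]
  refine nxg_cgr (cu_cgr _ _ _) ls m _ _ (fun w hw => ?_) w hw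
  exact (cu_nxg hC s hab ha hm ho _ w hw).symm

/-! ### Words and numbers -/

/-- the `m` low binary digits of `i`, most significant first -/
def bw : ℕ → ℕ → List Bool
  | 0, _ => []
  | m + 1, i => i.testBit m :: bw m i

/-- the number with the given binary digits, most significant first -/
def nb : List Bool → ℕ
  | [] => 0
  | v :: w => v.toNat * 2 ^ w.length + nb w

@[simp] theorem length_bw (m i : ℕ) : (bw m i).length = m := by
  induction m with
  | zero => rfl
  | succ m ih => simp [bw, ih]

theorem nb_lt (w : List Bool) : nb w < 2 ^ w.length := by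
  induction w with
  | nil => simp [nb]
  | cons v w ih =>
    rw [nb, List.length_cons, pow_succ]
    cases v <;> simp only [Bool.toNat_false, Bool.toNat_true] <;> omega

theorem testBit_nb_cons (v : Bool) (w : List Bool) : (nb (v :: w)).testBit w.length = v := by
  have h := nb_lt w
  rw [nb]
  cases v
  · simp only [Bool.toNat_false, zero_mul, zero_add]
    exact Nat.testBit_lt_two_pow h
  · simp only [Bool.toNat_true, one_mul]
    rw [Nat.testBit_two_pow_add_eq, Nat.testBit_lt_two_pow h]; rfl

theorem bw_congr {m i j : ℕ} (h : ∀ t < m, i.testBit t = j.testBit t) : bw m i = bw m j := by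
  induction m with
  | zero => rfl
  | succ m ih => rw [bw, bw, h m (by omega), ih fun t ht => h t (by omega)]

theorem bw_nb (w : List Bool) : bw w.length (nb w) = w := by
  induction w with
  | nil => rfl
  | cons v w ih =>
    rw [List.length_cons, bw, testBit_nb_cons]
    congr 1
    rw [← ih]
    conv_lhs => rw [ih]
    refine (bw_congr fun t ht => ?_).trans (by rw [ih])
    rw [nb]
    cases v
    · simp
    · simp only [Bool.toNat_true, one_mul]
      rw [Nat.testBit_two_pow_add_gt ht]

theorem nb_bw (m i : ℕ) (h : i < 2 ^ m) : nb (bw m i) = i := by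
  induction m generalizing i with
  | zero => simp at h; subst h; rfl
  | succ m ih =>
    rw [bw, nb, length_bw]
    by_cases hb : i < 2 ^ m
    · rw [Nat.testBit_lt_two_pow hb, ih i hb]; simp
    · obtain ⟨j, rfl⟩ : ∃ j, i = 2 ^ m + j := ⟨i - 2 ^ m, by omega⟩
      have hj : j < 2 ^ m := by rw [pow_succ] at h; omega
      have e : bw m (2 ^ m + j) = bw m j := bw_congr fun t ht => by
        rw [Nat.testBit_two_pow_add_gt ht]
      rw [e, ih j hj, Nat.testBit_two_pow_add_eq, Nat.testBit_lt_two_pow hj]
      simp

theorem bw_inj {m i j : ℕ} (hi : i < 2 ^ m) (hj : j < 2 ^ m) (h : bw m i = bw m j) : i = j := by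
  rw [← nb_bw m i hi, ← nb_bw m j hj, h]

/-! ### Zeta transforms -/

/-- the words below a word -/
def lw : List Bool → List (List Bool)
  | [] => [[]]
  | false :: c => (lw c).map (false :: ·)
  | true :: c => (lw c).map (false :: ·) ++ (lw c).map (true :: ·)

/-- zeta transform on the first `r` active levels -/
def zc : ℕ → List Bool → (List Bool → G) → List Bool → G
  | 0, _, f, w => f w
  | r + 1, false :: ls, f, v :: w => zc (r + 1) ls (fun w => f (v :: w)) w
  | r + 1, true :: ls, f, true :: w => zc r ls (fun w => f (false :: w) + f (true :: w)) w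
  | r + 1, true :: ls, f, false :: w => zc r ls (fun w => f (false :: w)) w
  | _, _, f, w => f w

/-- zeta transform on all active levels -/
def zetaL : List Bool → (List Bool → G) → List Bool → G
  | false :: ls, f, v :: w => zetaL ls (fun w => f (v :: w)) w
  | true :: ls, f, true :: w => zetaL ls (fun w => f (false :: w) + f (true :: w)) w
  | true :: ls, f, false :: w => zetaL ls (fun w => f (false :: w)) w
  | _, f, w => f w

theorem sum_add {ι : Type*} (l : List ι) (f g : ι → G) :
    (l.map fun i => f i + g i).sum = (l.map f).sum + (l.map g).sum := by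
  induction l with
  | nil => simp
  | cons i l ih => simp only [List.map_cons, List.sum_cons, ih]; abel

theorem zc_eq : ∀ (ls : List Bool) (r : ℕ) (f : List Bool → G) (w : List Bool),
    w.length = ls.length → r ≤ ls.count true →
    zc r ls f w = ((lw (pick ls r w)).map fun c => f (put ls c w)).sum
  | _, 0, f, w, _, _ => by simp [zc, pick, lw]
  | [], r + 1, _, _, _, h => by simp at h
  | _ :: _, _ + 1, _, [], h, _ => by simp at h
  | false :: ls, r + 1, f, v :: w, hw, h => by
    rw [zc, zc_eq ls (r + 1) _ w (by simpa using hw) (by simpa using h), pick]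
    simp
  | true :: ls, r + 1, f, false :: w, hw, h => by
    rw [zc, zc_eq ls r _ w (by simpa using hw) (by simpa using h), pick, lw, List.map_map]
    rfl
  | true :: ls, r + 1, f, true :: w, hw, h => by
    rw [zc, zc_eq ls r _ w (by simpa using hw) (by simpa using h), pick, lw, List.map_append,
      List.sum_append, sum_add, List.map_map, List.map_map]
    rfl

theorem sub_congr {m v v' u u' : ℕ} (h : ∀ t < m, v.testBit t = v'.testBit t)
    (h' : ∀ t < m, u.testBit t = u'.testBit t) : sub m v u = sub m v' u' := by
  rw [Bool.eq_iff_iff, sub_iff, sub_iff]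
  constructor
  · intro H t ht hv
    rw [← h' t ht]; exact H t ht (by rw [h t ht]; exact hv)
  · intro H t ht hv
    rw [h' t ht]; exact H t ht (by rw [← h t ht]; exact hv)

theorem sub_succ (m v u : ℕ) :
    sub (m + 1) v u = (sub m v u && (!v.testBit m || u.testBit m)) := by
  simp only [sub, List.range_succ, List.all_append, List.all_cons, List.all_nil, Bool.and_true]

/-- The sum over the numbers below `u` as a sum over words. -/
theorem sum_sub (m u : ℕ) (x : List Bool → G) :
    ∑ v ∈ (Finset.range (2 ^ m)).filter (fun v => sub m v u = true), x (bw m v) =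
      ((lw (bw m u)).map x).sum := by
  induction m generalizing x with
  | zero => simp [sub, bw, lw]
  | succ m ih =>
    rw [Finset.sum_filter, pow_succ, mul_two, Finset.sum_range_add]
    have e1 : ∀ v ∈ Finset.range (2 ^ m), (if sub (m + 1) v u = true then x (bw (m + 1) v)
        else 0) = if sub m v u = true then x (false :: bw m v) else 0 := by
      intro v hv
      rw [Finset.mem_range] at hv
      rw [sub_succ, bw, Nat.testBit_lt_two_pow hv]
      simp
    have e2 : ∀ v ∈ Finset.range (2 ^ m), (if sub (m + 1) (2 ^ m + v) u = true then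
        x (bw (m + 1) (2 ^ m + v)) else 0) =
        if sub m v u = true ∧ u.testBit m = true then x (true :: bw m v) else 0 := by
      intro v hv
      rw [Finset.mem_range] at hv
      have hb : (2 ^ m + v).testBit m = true := by
        rw [Nat.testBit_two_pow_add_eq, Nat.testBit_lt_two_pow hv]; rfl
      have e3 : bw m (2 ^ m + v) = bw m v := bw_congr fun t ht => by
        rw [Nat.testBit_two_pow_add_gt ht]
      have e4 : sub m (2 ^ m + v) u = sub m v u :=
        sub_congr (fun t ht => Nat.testBit_two_pow_add_gt ht v) fun _ _ => rfl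
      rw [sub_succ, bw, hb, e3, e4]
      simp
    rw [Finset.sum_congr rfl e1, Finset.sum_congr rfl e2, ← Finset.sum_filter,
      ih (fun c => x (false :: c))]
    rw [bw]
    cases hu : u.testBit m
    · simp [lw]
      rfl
    · simp only [and_true]
      rw [← Finset.sum_filter, ih (fun c => x (true :: c)), lw, List.map_append, List.sum_append,
        List.map_map, List.map_map]
      rfl

/-! ### Programs -/

theorem runS_congr {m : ℕ} : ∀ (l : List Slide) (x y : ℕ → G),
    (∀ t ∈ l, t.1 < 2 ^ m ∧ t.2.1 < 2 ^ m ∧ t.1 ≠ t.2.1) → (∀ i < 2 ^ m, x i = y i) →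
    ∀ i < 2 ^ m, runS l x i = runS l y i
  | [], _, _, _, h, i, hi => h i hi
  | t :: l, x, y, hr, h, i, hi => by
    rw [runS_cons, runS_cons]
    have ht := hr t List.mem_cons_self
    refine runS_congr l _ _ (fun s hs => hr s (List.mem_cons_of_mem _ hs)) (fun j hj => ?_) i hi
    by_cases e : j = t.1
    · subst e
      rw [sl, sl, Function.update_self, Function.update_self, h _ hj, h _ ht.2.1]
    · rw [sl, sl, Function.update_of_ne e, Function.update_of_ne e, h j hj]

/-- the chunk operator of a slide -/
def cut (m : ℕ) (t : Slide) (ls : List Bool) (f : List Bool → G) : List Bool → G :=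
  cu (opS t.2.2) (bw m t.2.1) (bw m t.1) ls f

/-- the chunk operator of a program -/
def cup (m : ℕ) (l : List Slide) (ls : List Bool) (f : List Bool → G) : List Bool → G :=
  l.foldl (fun f t => cut m t ls f) f

theorem cup_snoc (m : ℕ) (l : List Slide) (t : Slide) (ls : List Bool) (f : List Bool → G) :
    cup m (l ++ [t]) ls f = cut m t ls (cup m l ls f) := by
  simp [cup, List.foldl_append]

theorem cup_cons (m : ℕ) (l : List Slide) (t : Slide) (ls : List Bool) (f : List Bool → G) :
    cup m (t :: l) ls f = cup m l ls (cut m t ls f) := rfl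

theorem cup_lin (m : ℕ) (l : List Slide) : Lin (G := G) (cup m l) := by
  induction l using List.reverseRecOn with
  | nil => intro ls s f g; rfl
  | append_singleton l t ih =>
    intro ls s f g
    rw [cup_snoc, cup_snoc, cup_snoc, ih ls s f g]
    exact cu_lin _ _ _ ls s _ _

theorem cup_cgr (m : ℕ) (l : List Slide) : Cgr (α := G) (cup m l) := by
  induction l using List.reverseRecOn with
  | nil => intro ls f g h w hw; exact h w hw
  | append_singleton l t ih =>
    intro ls f g h w hw
    rw [cup_snoc, cup_snoc]
    exact cu_cgr _ _ _ ls _ _ (ih ls f g h) w hw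

/-- A program on the present chunk, fibre by fibre. -/
theorem cup_put {m : ℕ} (hm : 0 < m) {ls : List Bool} (hc : m ≤ ls.count true) :
    ∀ (l : List Slide) (f : List Bool → G) (w : List Bool) (i : ℕ),
      (∀ t ∈ l, t.1 < 2 ^ m ∧ t.2.1 < 2 ^ m ∧ t.1 ≠ t.2.1) → w.length = ls.length → i < 2 ^ m →
      cup m l ls f (put ls (bw m i) w) = runS l (fun i => f (put ls (bw m i) w)) i
  | [], f, w, i, _, _, _ => rfl
  | t :: l, f, w, i, hr, hw, hi => by
    have ht := hr t List.mem_cons_self
    have hr' : ∀ t ∈ l, t.1 < 2 ^ m ∧ t.2.1 < 2 ^ m ∧ t.1 ≠ t.2.1 := fun s hs =>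
      hr s (List.mem_cons_of_mem _ hs)
    rw [cup_cons, cup_put hm hc l (cut m t ls f) w i hr' hw hi, runS_cons]
    refine runS_congr l _ _ hr' (fun j hj => ?_) i hi
    rw [cut, cu, mat_put ls (bw m t.1) (bw m j) w hw (by simpa using hc) (by simp),
      put_put ls (bw m t.2.1) (bw m j) w (by simp)]
    by_cases e : j = t.1
    · subst e
      simp [sl, opS]
    · rw [sl, Function.update_of_ne e]
      have : (bw m j == bw m t.1) = false := by
        rw [beq_eq_false_iff_ne]
        exact fun h => e (bw_inj hj ht.1 h)
      rw [this, cond_false]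

theorem cup_eq_zc {m : ℕ} {l : List Slide} (h : Good m l) {ls : List Bool}
    (hc : m ≤ ls.count true) (f : List Bool → G) (w : List Bool) (hw : w.length = ls.length) :
    cup m l ls f w = zc m ls f w := by
  have hp := length_pick ls m w hw hc
  have hi : nb (pick ls m w) < 2 ^ m := by
    have := nb_lt (pick ls m w); rwa [hp] at this
  have hb : bw m (nb (pick ls m w)) = pick ls m w := by
    have := bw_nb (pick ls m w); rwa [hp] at this
  have h1 := cup_put h.pos hc l f w (nb (pick ls m w)) h.rng hw hi
  rw [hb, put_pick] at h1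
  rw [h1, h.runS_eq _ hi, sum_sub m _ (fun c => f (put ls c w)), hb, zc_eq ls m f w hw hc]

theorem zc_of_count_zero : ∀ (ls : List Bool) (r : ℕ) (f : List Bool → G) (w : List Bool),
    ls.count true = 0 → zc r ls f w = f w
  | _, 0, _, _, _ => by simp [zc]
  | [], r + 1, f, w, _ => by simp [zc]
  | false :: ls, r + 1, f, [], _ => by simp [zc]
  | false :: ls, r + 1, f, v :: w, h => by
    rw [zc, zc_of_count_zero ls (r + 1) _ w (by simpa using h)]
  | true :: ls, _, _, _, h => by simp at h

theorem cup_of_count_zero {m : ℕ} (hm : 0 < m) (l : List Slide) {ls : List Bool}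
    (hc : ls.count true = 0) (f : List Bool → G) : cup m l ls f = f := by
  induction l generalizing f with
  | nil => rfl
  | cons t l ih =>
    rw [cup_cons, ih]
    funext w
    rw [cut, cu, mat_of_count_zero ls _ w (by
      intro h
      have := congrArg List.length h
      simp at this; omega) hc, cond_false]

theorem cup_eq_zc' {m : ℕ} {l : List Slide} (h : Good m l) {ls : List Bool}
    (ho : ok m ls m) (f : List Bool → G) (w : List Bool) (hw : w.length = ls.length) :
    cup m l ls f w = zc m ls f w := by
  rcases ok_count ls m ho le_rfl with h1 | h1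
  · rw [cup_of_count_zero h.pos l h1.2, zc_of_count_zero ls m f w h1.2]
  · exact cup_eq_zc h h1 f w hw

theorem nxg_zc {m : ℕ} (hm : 0 < m) : ∀ (ls : List Bool) (r : ℕ) (f : List Bool → G),
    ok m ls r → 0 < r → ∀ w, w.length = ls.length →
    nxg (fun ls f => zc m ls f) m ls r (zc r ls f) w = zetaL ls f w
  | [], r, f, _, h0, w, hw => by
    obtain rfl : w = [] := List.length_eq_zero_iff.1 hw
    cases r <;> simp [nxg, zc, zetaL]
  | _ :: _, r, f, _, _, [], hw => by simp at hw
  | false :: ls, r, f, ho, h0, v :: w, hw => by
    obtain ⟨r, rfl⟩ : ∃ k, r = k + 1 := ⟨r - 1, by omega⟩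
    rw [nxg, zetaL, ← nxg_zc hm ls (r + 1) _ ho h0 w (by simpa using hw)]
    rfl
  | true :: ls, r, f, ho, h0, v :: w, hw => by
    have hw' : w.length = ls.length := by simpa using hw
    obtain ⟨r, rfl⟩ : ∃ k, r = k + 1 := ⟨r - 1, by omega⟩
    by_cases hr : r = 0
    · subst hr
      have ho' : ok m ls m := by simpa [ok] using ho
      cases v
      · rw [nxg, if_pos rfl, zetaL, ← nxg_zc hm ls m _ ho' hm w hw']
        have : (fun w => zc (0 + 1) (true :: ls) f (false :: w)) = fun w => f (false :: w) := by
          funext w; simp [zc]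
        rw [this]
      · rw [nxg, if_pos rfl, zetaL, ← nxg_zc hm ls m _ ho' hm w hw']
        have : (fun w => zc (0 + 1) (true :: ls) f (true :: w)) =
            fun w => f (false :: w) + f (true :: w) := by
          funext w; simp [zc]
        rw [this]
    · have ho' : ok m ls r := by simpa [ok, hr] using ho
      have hr1 : ¬ (r + 1 = 1) := by omega
      cases v
      · rw [nxg, if_neg hr1, zetaL, ← nxg_zc hm ls r _ ho' (by omega) w hw']
        rfl
      · rw [nxg, if_neg hr1, zetaL, ← nxg_zc hm ls r _ ho' (by omega) w hw']
        rfl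

/-- all slides of a program, each of them on all chunks -/
def allp (m : ℕ) (l : List Slide) (ls : List Bool) (f : List Bool → G) : List Bool → G :=
  l.foldl (fun f t => allg (cut m t) m ls f) f

theorem allp_eq {m : ℕ} (hm : 0 < m) {ls : List Bool} (ho : ok m ls m) (l : List Slide)
    (f : List Bool → G) (w : List Bool) (hw : w.length = ls.length) :
    allp m l ls f w = allg (cup m l) m ls f w := by
  induction l using List.reverseRecOn generalizing w with
  | nil =>
    have : allg (cup m []) m ls f = f := by
      rw [allg]; exact nxg_id ls m f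
    rw [this]; rfl
  | append_singleton l t ih =>
    have hne : bw m t.2.1 ≠ [] := by
      intro h
      have := congrArg List.length h
      simp at this; omega
    have e1 : allp m (l ++ [t]) ls f = allg (cut m t) m ls (allp m l ls f) := by
      simp [allp, List.foldl_append]
    have e2 : (cup m (l ++ [t]) : List Bool → (List Bool → G) → List Bool → G) =
        fun ls f => cut m t ls (cup m l ls f) := by
      funext ls f; exact cup_snoc m l t ls f
    rw [e1, e2]
    have h1 := allg_comp (cup_lin m l) (cup_cgr m l) t.2.2 (a := bw m t.2.1) (b := bw m t.1)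
      (by simp) hne (by simp) ls f ho w hw
    rw [show (allg (cut m t) m ls (allp m l ls f) w) = allg (cut m t) m ls
      (allg (cup m l) m ls f) w from ?_]
    · exact h1
    · rw [allg, allg]
      exact nxg_cgr (cu_cgr _ _ _) ls m _ _ (cu_cgr _ _ _ ls _ _ fun w hw => ih w hw) w hw

/-- **WORD**: a valid program, every slide on all chunks at once, is the zeta transform on all
active bits. -/
theorem allp_eq_zetaL {m : ℕ} {l : List Slide} (h : Good m l) {ls : List Bool} (ho : ok m ls m)
    (f : List Bool → G) (w : List Bool) (hw : w.length = ls.length) :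
    allp m l ls f w = zetaL ls f w := by
  rw [allp_eq h.pos ho l f w hw, ← nxg_zc h.pos ls m f ho h.pos w hw, allg]
  exact nxg_congr' (fun ls f g ho' hfg w hw => by
    rw [cup_eq_zc' h ho' f w hw]
    rw [← cup_eq_zc' h ho' f w hw, ← cup_eq_zc' h ho' g w hw]
    exact cup_cgr m l ls f g hfg w hw) ls m _ _ ho
    (fun w hw => cup_eq_zc' h ho f w hw) w hw

end Comp

end Vale.Agent.P338.R3.H527
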