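import Vale.Agent.P338.R2.H110.Acts
import Vale.Agent.P338.R3.H527.Word2

/-!
P338-D, module WORD: backward slides, direction of a slide of a program, zeta transforms on arrays
indexed by numbers.
-/

namespace Vale.Agent.P338.R3.H527

open Vale.Agent.P338.R2.H110 (cur nxt slideAll ok fw ins tab tab_congr cpl cpl_cpl length_cpl
  cpl_nil cpl_cons slideD fwD)

section Compl

variable {α : Type*}

theorem mat_cpl : ∀ (ls b w : List Bool), mat ls (cpl b) (cpl w) = mat ls b w
  | _, [], _ => by simp
  | [], _ :: _, w => by cases w <;> simp [mat]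
  | _ :: _, _ :: _, [] => by simp [mat]
  | false :: ls, y :: b, v :: w => by
    rw [cpl_cons v w, mat_false, mat_false, mat_cpl ls (y :: b) w]
  | true :: ls, y :: b, v :: w => by
    rw [cpl_cons, cpl_cons, mat_true, mat_true, mat_cpl ls b w]
    cases v <;> cases y <;> rfl

theorem put_cpl : ∀ (ls a w : List Bool), put ls (cpl a) (cpl w) = cpl (put ls a w)
  | _, [], _ => by simp
  | [], _ :: _, w => by simp [put]
  | _ :: _, _ :: _, [] => by simp [put]
  | false :: ls, x :: a, v :: w => by
    rw [cpl_cons v w, put_false, put_false, put_cpl ls (x :: a) w, cpl_cons]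
  | true :: ls, x :: a, v :: w => by
    rw [cpl_cons, cpl_cons, put_true, put_true, put_cpl ls a w, cpl_cons]

theorem cu_cpl (op : α → α → α) (a b ls : List Bool) (f : List Bool → α) :
    (cu op (cpl a) (cpl b) ls fun w => f (cpl w)) = fun w => cu op a b ls f (cpl w) := by
  funext w
  rw [cu, cu]
  have h1 := mat_cpl ls b (cpl w)
  have h2 := put_cpl ls a (cpl w)
  rw [cpl_cpl] at h1 h2
  rw [h1, h2, cpl_cpl]

theorem nxg_cpl {C C' : List Bool → (List Bool → α) → List Bool → α} {m : ℕ}
    (h : ∀ ls f, (C ls fun w => f (cpl w)) = fun w => C' ls f (cpl w)) :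
    ∀ (ls : List Bool) (r : ℕ) (f : List Bool → α),
      (nxg C m ls r fun w => f (cpl w)) = fun w => nxg C' m ls r f (cpl w)
  | [], r, f => by funext w; cases w <;> simp [nxg]
  | false :: ls, r, f => by
    funext w
    cases w with
    | nil => simp [nxg]
    | cons v w =>
      rw [cpl_cons, nxg, nxg]
      exact congrFun (nxg_cpl h ls r fun w => f ((!v) :: w)) w
  | true :: ls, r, f => by
    funext w
    cases w with
    | nil => simp [nxg]
    | cons v w =>
      rw [cpl_cons, nxg, nxg]
      by_cases hr : r = 1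
      · rw [if_pos hr, if_pos hr]
        have e : (C ls fun w => f (cpl (v :: w))) = fun w => C' ls (fun w => f ((!v) :: w)) (cpl w) :=
          h ls fun w => f ((!v) :: w)
        rw [e]
        exact congrFun (nxg_cpl h ls m _) w
      · rw [if_neg hr, if_neg hr]
        exact congrFun (nxg_cpl h ls (r - 1) fun w => f ((!v) :: w)) w

theorem allg_cpl (op : α → α → α) (a b : List Bool) (m : ℕ) (ls : List Bool)
    (f : List Bool → α) (w : List Bool) :
    allg (cu op (cpl a) (cpl b)) m ls (fun w => f (cpl w)) (cpl w) =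
      allg (cu op a b) m ls f w := by
  have := congrFun (nxg_cpl (C := cu op (cpl a) (cpl b)) (C' := cu op a b) (m := m)
    (fun ls f => cu_cpl op a b ls f) ls m (cu op a b ls f)) (cpl w)
  rw [allg, cu_cpl, this, cpl_cpl, allg]

/-- Helper110's slides in both directions, in relation-free form. -/
theorem slideD_eq_allg (op : α → α → α) {d : Bool} {a b ls : List Bool} (h : fwD d a b)
    (ho : ok a.length ls a.length) (f : List Bool → α) (w : List Bool)
    (hw : w.length = ls.length) :
    slideD op d a b ls f w = allg (cu op a b) a.length ls f w := by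
  cases d
  · have h' : fw (cpl a) (cpl b) := h
    have := slideAll_eq_allg op h' (by simpa using ho) (fun w => f (cpl w)) (cpl w) (by simpa using hw)
    rw [length_cpl, allg_cpl] at this
    exact this
  · exact slideAll_eq_allg op h ho f w hw

end Compl

/-! ### Direction -/

theorem fw_of_lt : ∀ (a b : List Bool), a.length = b.length → nb a < nb b → fw a b
  | [], [], _, h => by simp [nb] at h
  | [], _ :: _, h, _ => by simp at h
  | _ :: _, [], h, _ => by simp at h
  | x :: a, y :: b, h, hlt => by
    have hl : a.length = b.length := by simpa using h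
    have h1 := nb_lt a
    have h2 := nb_lt b
    rw [nb, nb, hl] at hlt
    rw [hl] at h1
    rw [fw]
    by_cases e : x = y
    · rw [if_pos e]
      subst e
      exact fw_of_lt a b hl (by omega)
    · rw [if_neg e]
      cases x <;> cases y
      · exact absurd rfl e
      · exact ⟨rfl, rfl, hl⟩
      · simp only [Bool.toNat_true, Bool.toNat_false, one_mul, zero_mul] at hlt
        omega
      · exact absurd rfl e

theorem nb_cpl (w : List Bool) : nb (cpl w) + nb w + 1 = 2 ^ w.length := by
  induction w with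
  | nil => simp [nb]
  | cons v w ih =>
    rw [cpl_cons, nb, nb, length_cpl, List.length_cons, pow_succ]
    cases v <;> simp only [Bool.not_false, Bool.not_true, Bool.toNat_true, Bool.toNat_false] <;>
      omega

/-- Every slide of a program has a direction: forward iff its source is before its target. -/
theorem fwD_of_ne {m i j : ℕ} (hi : i < 2 ^ m) (hj : j < 2 ^ m) (h : i ≠ j) :
    fwD (decide (j < i)) (bw m j) (bw m i) := by
  by_cases hlt : j < i
  · rw [decide_eq_true hlt]
    refine fw_of_lt _ _ (by simp) ?_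
    rwa [nb_bw m j hj, nb_bw m i hi]
  · rw [decide_eq_false hlt]
    refine fw_of_lt _ _ (by simp) ?_
    have h1 := nb_cpl (bw m j)
    have h2 := nb_cpl (bw m i)
    rw [nb_bw m j hj] at h1
    rw [nb_bw m i hi] at h2
    rw [length_bw] at h1 h2
    omega

/-! ### Zeta transforms on words -/

section Z

variable {G : Type*} [AddCommGroup G]

theorem zetaL_congr : ∀ (ls : List Bool) (f g : List Bool → G),
    (∀ w, w.length = ls.length → f w = g w) → ∀ w, w.length = ls.length →
    zetaL ls f w = zetaL ls g w
  | [], f, g, h, w, hw => by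
    obtain rfl : w = [] := List.length_eq_zero_iff.1 hw
    simpa [zetaL] using h [] rfl
  | _ :: _, f, g, h, [], hw => by simp at hw
  | false :: ls, f, g, h, v :: w, hw => by
    rw [zetaL, zetaL]
    exact zetaL_congr ls _ _ (fun w hw => h _ (by simpa using hw)) w (by simpa using hw)
  | true :: ls, f, g, h, false :: w, hw => by
    rw [zetaL, zetaL]
    exact zetaL_congr ls _ _ (fun w hw => h _ (by simpa using hw)) w (by simpa using hw)
  | true :: ls, f, g, h, true :: w, hw => by
    rw [zetaL, zetaL]
    exact zetaL_congr ls _ _ (fun w hw => by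
      rw [h _ (by simpa using hw), h _ (by simpa using hw)]) w (by simpa using hw)

theorem zetaL_add : ∀ (ls : List Bool) (f g : List Bool → G) (w : List Bool),
    zetaL ls (fun w => f w + g w) w = zetaL ls f w + zetaL ls g w
  | [], f, g, w => by cases w <;> simp [zetaL]
  | false :: ls, f, g, [] => by simp [zetaL]
  | true :: ls, f, g, [] => by simp [zetaL]
  | false :: ls, f, g, v :: w => by
    rw [zetaL, zetaL, zetaL]; exact zetaL_add ls _ _ w
  | true :: ls, f, g, false :: w => by
    rw [zetaL, zetaL, zetaL]; exact zetaL_add ls _ _ w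
  | true :: ls, f, g, true :: w => by
    rw [zetaL, zetaL, zetaL, ← zetaL_add ls _ _ w]
    congr 1
    funext w
    abel

/-! ### Zeta transforms on arrays indexed by numbers -/

/-- cell with bit `b` equal to `1` += cell with bit `0` -/
def upG (b : ℕ) (f : ℕ → G) (u : ℕ) : G := if u.testBit b then f u + f (u - 2 ^ b) else f u

/-- cell with bit `b` equal to `0` += cell with bit `1` -/
def dnG (b : ℕ) (f : ℕ → G) (u : ℕ) : G := if u.testBit b then f u else f u + f (u + 2 ^ b)

theorem ge_of_testBit {u b : ℕ} (h : u.testBit b = true) : 2 ^ b ≤ u := Nat.ge_two_pow_of_testBit h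

/-- a number with a digit `1` in position `b` -/
theorem split_testBit {u b : ℕ} (h : u.testBit b = true) :
    ∃ q r, r < 2 ^ b ∧ u = 2 ^ (b + 1) * q + (2 ^ b + r) := by
  refine ⟨u / 2 ^ (b + 1), u % 2 ^ b, Nat.mod_lt _ (by positivity), ?_⟩
  rw [Nat.testBit_eq_decide_div_mod_eq, decide_eq_true_eq] at h
  have h1 := Nat.div_add_mod u (2 ^ b)
  have h2 := Nat.div_add_mod (u / 2 ^ b) 2
  rw [h, Nat.div_div_eq_div_mul, ← pow_succ] at h2
  rw [← h2] at h1
  rw [pow_succ] at h1 ⊢
  nlinarith [h1]

theorem testBit_sub {u b c : ℕ} (h : u.testBit b = true) :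
    (u - 2 ^ b).testBit c = (u.testBit c && !decide (c = b)) := by
  obtain ⟨q, r, hr, rfl⟩ := split_testBit h
  have e : 2 ^ (b + 1) * q + (2 ^ b + r) - 2 ^ b = 2 ^ (b + 1) * q + r := by omega
  have h1 : 2 ^ b + r < 2 ^ (b + 1) := by rw [pow_succ]; omega
  have h2 : r < 2 ^ (b + 1) := by omega
  rw [e, Nat.testBit_two_pow_mul_add _ h1, Nat.testBit_two_pow_mul_add _ h2]
  by_cases hc : c < b + 1
  · rw [if_pos hc, if_pos hc]
    by_cases hcb : c = b
    · subst hcb
      rw [Nat.testBit_lt_two_pow hr]; simp
    · rw [Nat.testBit_two_pow_add_gt (by omega)]; simp [hcb]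
  · rw [if_neg hc, if_neg hc]
    have : ¬ c = b := by omega
    simp [this]

theorem upG_comm (b c : ℕ) (f : ℕ → G) : upG b (upG c f) = upG c (upG b f) := by
  by_cases hbc : b = c
  · subst hbc; rfl
  have hbc' : ¬ c = b := fun h => hbc h.symm
  funext u
  simp only [upG]
  by_cases hb : u.testBit b = true
  · have hb' : (u - 2 ^ b).testBit c = u.testBit c := by rw [testBit_sub hb]; simp [hbc']
    by_cases hc : u.testBit c = true
    · have hc' : (u - 2 ^ c).testBit b = true := by rw [testBit_sub hc, hb]; simp [hbc]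
      rw [if_pos hb, if_pos hc, if_pos hc, if_pos (hb'.trans hc), if_pos hb, if_pos hc']
      have e : u - 2 ^ b - 2 ^ c = u - 2 ^ c - 2 ^ b := by omega
      rw [e]; abel
    · have h1 : ¬ (u - 2 ^ b).testBit c = true := by rw [hb']; exact hc
      rw [if_pos hb, if_neg hc, if_neg hc, if_neg h1, if_pos hb]
  · by_cases hc : u.testBit c = true
    · have hc' : ¬ (u - 2 ^ c).testBit b = true := by
        rw [testBit_sub hc]; simp [hb]
      rw [if_neg hb, if_pos hc, if_pos hc, if_neg hb, if_neg hc']
    · rw [if_neg hb, if_neg hc, if_neg hc, if_neg hb]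

theorem foldr_upG_perm {J J' : List ℕ} (h : J.Perm J') (f : ℕ → G) :
    J.foldr upG f = J'.foldr upG f :=
  haveI : LeftCommutative (upG (G := G)) := ⟨fun b c f => upG_comm b c f⟩
  h.foldr_eq f

/-- the levels of the index bits `K - 1, ..., 0`; active are those in `J` -/
def lvl (J : List ℕ) : ℕ → List Bool
  | 0 => []
  | K + 1 => decide (K ∈ J) :: lvl J K

@[simp] theorem length_lvl (J : List ℕ) (K : ℕ) : (lvl J K).length = K := by
  induction K with
  | zero => rfl
  | succ K ih => simp [lvl, ih]

/-- the active positions below `K` -/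
def actJ (J : List ℕ) (K : ℕ) : List ℕ := (List.range K).filter (· ∈ J)

theorem actJ_succ (J : List ℕ) (K : ℕ) :
    actJ J (K + 1) = actJ J K ++ if K ∈ J then [K] else [] := by
  rw [actJ, List.range_succ, List.filter_append, actJ]
  congr 1
  by_cases h : K ∈ J <;> simp [h]

theorem actJ_perm {J : List ℕ} {K : ℕ} (hn : J.Nodup) (h : ∀ b ∈ J, b < K) :
    (actJ J K).Perm J := by
  refine (List.perm_ext_iff_of_nodup (List.nodup_range.filter _) hn).2 fun b => ?_
  simp only [List.mem_filter, List.mem_range, decide_eq_true_eq]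
  exact ⟨fun h => h.2, fun hb => ⟨h b hb, hb⟩⟩

theorem upG_low {b : ℕ} {f g : ℕ → G} {K : ℕ} (hb : b < K) {c : ℕ}
    (h : ∀ u < 2 ^ K, f (2 ^ K * c + u) = g u) :
    ∀ u < 2 ^ K, upG b f (2 ^ K * c + u) = upG b g u := by
  intro u hu
  have e : (2 ^ K * c + u).testBit b = u.testBit b := by
    rw [Nat.testBit_two_pow_mul_add _ hu, if_pos hb]
  rw [upG, upG, e]
  by_cases hb : u.testBit b = true
  · have := ge_of_testBit hb
    have hp := Nat.two_pow_pos b
    rw [if_pos hb, if_pos hb, h u hu, ← h (u - 2 ^ b) (by omega),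
      Nat.add_sub_assoc this]
  · rw [if_neg hb, if_neg hb, h u hu]

theorem foldr_upG_low {f g : ℕ → G} {K c : ℕ} (J : List ℕ) (hJ : ∀ b ∈ J, b < K)
    (h : ∀ u < 2 ^ K, f (2 ^ K * c + u) = g u) :
    ∀ u < 2 ^ K, J.foldr upG f (2 ^ K * c + u) = J.foldr upG g u := by
  induction J with
  | nil => exact h
  | cons b J ih =>
    exact upG_low (hJ b (by simp)) (ih fun c hc => hJ c (by simp [hc]))

/-- Zeta transform on words = zeta transform on numbers. -/
theorem zetaL_actJ (J : List ℕ) : ∀ (K : ℕ) (F : ℕ → G) (w : List Bool), w.length = K →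
    zetaL (lvl J K) (fun w => F (nb w)) w = (actJ J K).foldr upG F (nb w)
  | 0, F, w, hw => by
    obtain rfl : w = [] := List.length_eq_zero_iff.1 hw
    simp [lvl, zetaL, actJ]
  | K + 1, F, [], hw => by simp at hw
  | K + 1, F, v :: w, hw => by
    have hw' : w.length = K := by simpa using hw
    have hlt : nb w < 2 ^ K := by have := nb_lt w; rwa [hw'] at this
    have hmem : ∀ b ∈ actJ J K, b < K := fun b hb => by
      simp only [actJ, List.mem_filter, List.mem_range] at hb; exact hb.1
    rw [actJ_succ, List.foldr_append]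
    by_cases h : K ∈ J
    · rw [if_pos h, List.foldr_cons, List.foldr_nil]
      cases v
      · have e : zetaL (lvl J (K + 1)) (fun w => F (nb w)) (false :: w) =
            zetaL (lvl J K) (fun w => F (nb (false :: w))) w := by
          rw [lvl, decide_eq_true h, zetaL]
        have e2 : (fun w => F (nb (false :: w))) = fun w => F (nb w) := by
          funext w; simp [nb]
        rw [e, e2, zetaL_actJ J K F w hw']
        have e3 : nb (false :: w) = 2 ^ K * 0 + nb w := by simp [nb]
        rw [e3]
        refine (foldr_upG_low (actJ J K) hmem (c := 0) (fun u hu => ?_) (nb w) hlt).symm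
        rw [mul_zero, zero_add, upG, Nat.testBit_lt_two_pow hu]
        simp
      · have e : zetaL (lvl J (K + 1)) (fun w => F (nb w)) (true :: w) =
            zetaL (lvl J K) (fun w => F (nb (false :: w)) + F (nb (true :: w))) w := by
          rw [lvl, decide_eq_true h, zetaL]
        have e2 : zetaL (lvl J K) (fun w => F (nb (false :: w)) + F (nb (true :: w))) w =
            zetaL (lvl J K) (fun w => (fun i => F i + F (2 ^ K + i)) (nb w)) w := by
          refine zetaL_congr _ _ _ (fun w hw => ?_) w (by simpa using hw')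
          rw [length_lvl] at hw
          simp [nb, hw]
        rw [e, e2, zetaL_actJ J K (fun i => F i + F (2 ^ K + i)) w hw']
        have e3 : nb (true :: w) = 2 ^ K * 1 + nb w := by simp [nb, hw']
        rw [e3]
        refine (foldr_upG_low (actJ J K) hmem (c := 1) (fun u hu => ?_) (nb w) hlt).symm
        rw [mul_one, upG, Nat.testBit_two_pow_add_eq, Nat.testBit_lt_two_pow hu]
        simp only [Bool.not_false, if_true]
        rw [Nat.add_sub_cancel_left, add_comm]
    · rw [if_neg h, List.foldr_nil]
      have e : zetaL (lvl J (K + 1)) (fun w => F (nb w)) (v :: w) =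
          zetaL (lvl J K) (fun w => F (nb (v :: w))) w := by
        rw [lvl, decide_eq_false h, zetaL]
      have e2 : zetaL (lvl J K) (fun w => F (nb (v :: w))) w =
          zetaL (lvl J K) (fun w => (fun i => F (2 ^ K * v.toNat + i)) (nb w)) w := by
        refine zetaL_congr _ _ _ (fun w hw => ?_) w (by simpa using hw')
        rw [length_lvl] at hw
        rw [nb, hw, mul_comm]
      rw [e, e2, zetaL_actJ J K (fun i => F (2 ^ K * v.toNat + i)) w hw']
      have e3 : nb (v :: w) = 2 ^ K * v.toNat + nb w := by rw [nb, hw', mul_comm]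
      rw [e3]
      exact (foldr_upG_low (actJ J K) hmem (fun u _ => rfl) (nb w) hlt).symm

/-- Zeta transform on words = `J.foldr upG` on numbers. -/
theorem zetaL_lvl {J : List ℕ} {K : ℕ} (hn : J.Nodup) (hJ : ∀ b ∈ J, b < K) (F : ℕ → G)
    (w : List Bool) (hw : w.length = K) :
    zetaL (lvl J K) (fun w => F (nb w)) w = J.foldr upG F (nb w) := by
  rw [zetaL_actJ J K F w hw, foldr_upG_perm (actJ_perm hn hJ)]

/-! ### Transposed zeta transform -/

theorem testBit_compl {K u b : ℕ} (hu : u < 2 ^ K) (hb : b < K) :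
    (2 ^ K - 1 - u).testBit b = !u.testBit b := by
  have e : 2 ^ K - 1 - u = 2 ^ K - (u + 1) := by omega
  rw [e, Nat.testBit_two_pow_sub_succ hu]
  simp [hb]

theorem dnG_compl {K b : ℕ} (hb : b < K) {f g : ℕ → G}
    (h : ∀ u < 2 ^ K, f (2 ^ K - 1 - u) = g u) :
    ∀ u < 2 ^ K, dnG b f (2 ^ K - 1 - u) = upG b g u := by
  intro u hu
  rw [dnG, upG, testBit_compl hu hb]
  by_cases hb' : u.testBit b = true
  · have := ge_of_testBit hb'
    have hp := Nat.two_pow_pos b
    rw [hb']
    simp only [Bool.not_true, Bool.false_eq_true, if_false, if_true]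
    rw [h u hu, ← h (u - 2 ^ b) (by omega)]
    congr 2
    omega
  · rw [Bool.not_eq_true] at hb'
    rw [hb']
    simp only [Bool.not_false, if_true, Bool.false_eq_true, if_false]
    exact h u hu

theorem foldr_dnG_compl {K : ℕ} {f g : ℕ → G} (J : List ℕ) (hJ : ∀ b ∈ J, b < K)
    (h : ∀ u < 2 ^ K, f (2 ^ K - 1 - u) = g u) :
    ∀ u < 2 ^ K, J.foldr dnG f (2 ^ K - 1 - u) = J.foldr upG g u := by
  induction J with
  | nil => exact h
  | cons b J ih =>
    exact dnG_compl (hJ b (by simp)) (ih fun c hc => hJ c (by simp [hc]))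

theorem nb_cpl' {K : ℕ} {w : List Bool} (hw : w.length = K) : nb (cpl w) = 2 ^ K - 1 - nb w := by
  have := nb_cpl w
  rw [hw] at this
  omega

/-- Transposed zeta transform on numbers = zeta transform on words, conjugated by the
complement. -/
theorem zetaL_lvl_dn {J : List ℕ} {K : ℕ} (hn : J.Nodup) (hJ : ∀ b ∈ J, b < K) (F : ℕ → G)
    (w : List Bool) (hw : w.length = K) :
    zetaL (lvl J K) (fun w => F (nb (cpl w))) (cpl w) = J.foldr dnG F (nb w) := by
  have hw' : (cpl w).length = K := by rw [length_cpl, hw]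
  have hlt : nb (cpl w) < 2 ^ K := by have := nb_lt (cpl w); rwa [hw'] at this
  have hlt' : nb w < 2 ^ K := by have := nb_lt w; rwa [hw] at this
  have e1 : zetaL (lvl J K) (fun w => F (nb (cpl w))) (cpl w) =
      zetaL (lvl J K) (fun w => (fun i => F (2 ^ K - 1 - i)) (nb w)) (cpl w) := by
    refine zetaL_congr _ _ _ (fun w hw => ?_) _ (by simpa using hw')
    rw [length_lvl] at hw
    simp only
    rw [nb_cpl' hw]
  have e4 : 2 ^ K - 1 - nb (cpl w) = nb w := by
    rw [nb_cpl' hw]; omega
  rw [e1, zetaL_lvl hn hJ (fun i => F (2 ^ K - 1 - i)) _ hw',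
    ← foldr_dnG_compl J hJ (f := F) (fun u _ => rfl) (nb (cpl w)) hlt, e4]

/-! ### Two more low bits -/

theorem upG_shift (b k j : ℕ) (hj : j < 2 ^ k) (F : ℕ → G) (u : ℕ) :
    upG (b + k) F (2 ^ k * u + j) = upG b (fun u => F (2 ^ k * u + j)) u := by
  rw [upG, upG, Nat.testBit_two_pow_mul_add _ hj, if_neg (show ¬ b + k < k by omega),
    Nat.add_sub_cancel]
  by_cases h : u.testBit b = true
  · have := ge_of_testBit h
    rw [if_pos h, if_pos h]
    congr 2
    rw [pow_add, Nat.mul_sub, mul_comm (2 ^ b)]
    have := Nat.mul_le_mul_left (2 ^ k) this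
    omega
  · rw [if_neg h, if_neg h]

theorem foldr_upG_shift (J : List ℕ) (k j : ℕ) (hj : j < 2 ^ k) (F : ℕ → G) (u : ℕ) :
    (J.map (· + k)).foldr upG F (2 ^ k * u + j) =
      J.foldr upG (fun u => F (2 ^ k * u + j)) u := by
  induction J generalizing u with
  | nil => rfl
  | cons b J ih =>
    rw [List.map_cons, List.foldr_cons, List.foldr_cons, upG_shift b k j hj]
    congr 1
    funext u
    exact ih u

theorem dnG_shift (b k j : ℕ) (hj : j < 2 ^ k) (F : ℕ → G) (u : ℕ) :
    dnG (b + k) F (2 ^ k * u + j) = dnG b (fun u => F (2 ^ k * u + j)) u := by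
  rw [dnG, dnG, Nat.testBit_two_pow_mul_add _ hj, if_neg (show ¬ b + k < k by omega),
    Nat.add_sub_cancel]
  by_cases h : u.testBit b = true
  · rw [if_pos h, if_pos h]
  · rw [if_neg h, if_neg h]
    congr 2
    rw [pow_add]; ring

theorem foldr_dnG_shift (J : List ℕ) (k j : ℕ) (hj : j < 2 ^ k) (F : ℕ → G) (u : ℕ) :
    (J.map (· + k)).foldr dnG F (2 ^ k * u + j) =
      J.foldr dnG (fun u => F (2 ^ k * u + j)) u := by
  induction J generalizing u with
  | nil => rfl
  | cons b J ih =>
    rw [List.map_cons, List.foldr_cons, List.foldr_cons, dnG_shift b k j hj]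
    congr 1
    funext u
    exact ih u

end Z

end Vale.Agent.P338.R3.H527
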