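import Vale.Agent.P338.R3.H527.Code

/-!
P338-D, module SEARCH: the best valid program among the codes `< d`.
-/

namespace Vale.Agent.P338.R3.H527

open Vale.Agent.Lib.PolyTime

/-- the code `c` is accepted at level `d` -/
def okc (d c : ℕ) : Bool :=
  decide (0 < (dec c).1) && (decide (2 ^ (dec c).1 ≤ d) &&
    chk (min (2 ^ (dec c).1) d) (dec c).1 (dec c).2)

/-- the program of a code (a trivial one if it is not accepted) -/
def prg (d c : ℕ) : ℕ × List Slide := bif okc d c then dec c else (1, [(1, 0, true)])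

/-- comparison of the ratios `length / (m 2^m)` -/
def better (d c s : ℕ) : Bool :=
  decide ((prg d c).2.length * ((prg d s).1 * 2 ^ (prg d s).1) <
    (prg d s).2.length * ((prg d c).1 * 2 ^ (prg d c).1))

/-- the best code below `k` -/
def bcode (d k : ℕ) : ℕ := (List.range k).foldl (fun s c => if better d c s = true then c else s) 0

/-- the best program among the codes `< d` -/
def best (d : ℕ) : ℕ × List Slide := prg d (bcode d d)

theorem okc_iff {d c : ℕ} : okc d c = true ↔ 2 ^ (dec c).1 ≤ d ∧ Good (dec c).1 (dec c).2 := by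
  rw [okc, Bool.and_eq_true, Bool.and_eq_true, decide_eq_true_eq, decide_eq_true_eq]
  constructor
  · rintro ⟨h0, h1, h2⟩
    rw [min_eq_left h1, chk_iff h0] at h2
    exact ⟨h1, h2⟩
  · rintro ⟨h1, h2⟩
    refine ⟨h2.pos, h1, ?_⟩
    rw [min_eq_left h1, chk_iff h2.pos]
    exact h2

theorem prg_good (d c : ℕ) : Good (prg d c).1 (prg d c).2 := by
  rw [prg]
  cases h : okc d c
  · exact good_one
  · exact (okc_iff.1 h).2

theorem best_good (d : ℕ) : Good (best d).1 (best d).2 := prg_good _ _

/-- the ratio of a program -/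
noncomputable def ratio (p : ℕ × List Slide) : ℝ := (p.2.length : ℝ) / (p.1 * 2 ^ p.1)

theorem better_iff {d c s : ℕ} : better d c s = true ↔ ratio (prg d c) < ratio (prg d s) := by
  have hc : (0 : ℝ) < (prg d c).1 * 2 ^ (prg d c).1 := by
    have := (prg_good d c).pos
    positivity
  have hs : (0 : ℝ) < (prg d s).1 * 2 ^ (prg d s).1 := by
    have := (prg_good d s).pos
    positivity
  rw [better, decide_eq_true_eq, ratio, ratio, div_lt_div_iff₀ hc hs]
  norm_cast

theorem bcode_succ (d k : ℕ) : bcode d (k + 1) =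
    if better d k (bcode d k) = true then k else bcode d k := by
  rw [bcode, List.range_succ, List.foldl_append]; rfl

theorem ratio_bcode_le (d k : ℕ) : ∀ c < k, ratio (prg d (bcode d k)) ≤ ratio (prg d c) := by
  induction k with
  | zero => intro c hc; omega
  | succ k ih =>
    intro c hc
    rw [bcode_succ]
    split_ifs with h
    · rw [better_iff] at h
      rcases Nat.lt_succ_iff_lt_or_eq.1 hc with h1 | rfl
      · exact h.le.trans (ih c h1)
      · exact le_rfl
    · rw [better_iff, not_lt] at h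
      rcases Nat.lt_succ_iff_lt_or_eq.1 hc with h1 | rfl
      · exact ih c h1
      · exact h

theorem bcode_lt (d k : ℕ) : bcode d k < k ∨ bcode d k = 0 := by
  induction k with
  | zero => right; rfl
  | succ k ih =>
    rw [bcode_succ]
    split_ifs
    · left; omega
    · omega

theorem bcode_le (d k : ℕ) : bcode d k ≤ k := by
  rcases bcode_lt d k with h | h <;> omega

/-- The best program is at least as good as any valid program whose code is `< d`. -/
theorem best_le {d m : ℕ} {l : List Slide} (hg : Good m l) (hc : cod m l < d) (hm : 2 ^ m ≤ d) :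
    ratio (best d) ≤ (l.length : ℝ) / (m * 2 ^ m) := by
  have h1 := ratio_bcode_le d d _ hc
  have hd := dec_cod (m := m) (l := l) fun t ht => ⟨(hg.rng t ht).1, (hg.rng t ht).2.1⟩
  have hok : okc d (cod m l) = true := by
    rw [okc_iff, hd]; exact ⟨hm, hg⟩
  have h2 : prg d (cod m l) = (m, l) := by rw [prg, hok, cond_true, hd]
  rw [h2] at h1
  exact h1

/-- If short programs exist, the best programs become arbitrarily short. -/
theorem best_eventually (hPI : ∀ ε : ℝ, 0 < ε → ∃ m l, Good m l ∧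
    (l.length : ℝ) ≤ ε * (m * 2 ^ m)) (ε : ℝ) (hε : 0 < ε) :
    ∃ d₀, ∀ d, d₀ ≤ d → ((best d).2.length : ℝ) ≤ ε * ((best d).1 * 2 ^ (best d).1) := by
  obtain ⟨m, l, hg, hl⟩ := hPI ε hε
  refine ⟨cod m l + 1 + 2 ^ m, fun d hd => ?_⟩
  have hp := Nat.two_pow_pos m
  have h1 := best_le hg (d := d) (by omega) (by omega)
  have hb : (0 : ℝ) < (best d).1 * 2 ^ (best d).1 := by
    have := (best_good d).pos
    positivity
  have hm : (0 : ℝ) < m * 2 ^ m := by
    have := hg.pos
    positivity
  rw [ratio, div_le_iff₀ hb] at h1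
  refine h1.trans (mul_le_mul_of_nonneg_right ?_ hb.le)
  rwa [div_le_iff₀ hm]

/-- The length of the best program. -/
theorem best_length_le (d : ℕ) : (best d).2.length ≤ Nat.size d + 1 := by
  rw [best, prg]
  cases h : okc d (bcode d d)
  · simp
  · rw [cond_true]
    have h1 := dec_length_le (bcode d d)
    have h2 := Nat.size_le_size (bcode_le d d)
    omega

theorem best_two_pow_le (d : ℕ) : 2 ^ (best d).1 ≤ Nat.size d + 2 := by
  have := (best_good d).two_pow_le
  have := best_length_le d
  omega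

/-! ### Polynomial time -/

variable {A : Set Word} {α : Type*} [Enc α]

theorem PT.recip {c : α → ℕ} (hc : PT A c) : PT A (fun a => (dec (c a)).1) := by
  have : PT A (fun a => ((c a).bits.dropLast.takeWhile fun b => b).length) :=
    PT.length (PT.takeWhile (f := fun _ b => b) (PT.dropLast (PT.natBits hc)) PT.snd')
  exact this

theorem PBd.dec1 {c : α → ℕ} (hc : PT A c) : PBd (fun a => (dec (c a)).1) :=
  hc.pbd.mono fun a => by rw [esize_nat]; exact dec_fst_le _

theorem PT.rec1 {m : α → ℕ} {r : α → List Bool} (hm : PT A m) (hr : PT A r) :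
    PT A (fun a => H527.rec1 (m a) (r a)) := by
  have h1 : PT A (fun a => val ((r a).take (m a))) := PT.valList (PT.take hr hm)
  have h2 : PT A (fun a => val (((r a).drop (m a)).take (m a))) :=
    PT.valList (PT.take (PT.drop hr hm) hm)
  have h3 : PT A (fun a => ((r a).drop (2 * m a)).headD false) :=
    PT.headD (PT.drop hr (PT.double hm)) (PT.const false)
  exact h1.pair (h2.pair h3)

theorem PT.dec {c : α → ℕ} (hc : PT A c) : PT A (fun a => H527.dec (c a)) := by
  have hw : PT A (fun a => (c a).bits.dropLast) := PT.dropLast (PT.natBits hc)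
  have hm := PT.recip hc
  have hr : PT A (fun a => (c a).bits.dropLast.drop ((H527.dec (c a)).1 + 1)) :=
    PT.drop hw (PT.add hm (PT.const 1))
  have hk : PT A (fun a => ((c a).bits.dropLast.drop ((H527.dec (c a)).1 + 1)).length /
      (2 * (H527.dec (c a)).1 + 1)) :=
    PT.div (PT.length hr) (PT.add (PT.double hm) (PT.const 1))
  have hkb : PBd (fun a => ((c a).bits.dropLast.drop ((H527.dec (c a)).1 + 1)).length /
      (2 * (H527.dec (c a)).1 + 1)) :=
    (PBd.length hr).mono fun a => Nat.div_le_self _ _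
  refine (hm.pair (PT.map (PT.range hk hkb) (f := fun a t =>
    H527.rec1 (H527.dec (c a)).1 (((c a).bits.dropLast.drop ((H527.dec (c a)).1 + 1)).drop
      (t * (2 * (H527.dec (c a)).1 + 1)))) ?_)).congr fun a => ?_
  · exact PT.rec1 (hm.comp PT.fst') (PT.drop (hr.comp PT.fst')
      (PT.mul PT.snd' ((PT.add (PT.double hm) (PT.const 1)).comp PT.fst')))
  · rfl

theorem PT.sub {m v u : α → ℕ} (hm : PT A m) (hmb : PBd m) (hv : PT A v) (hu : PT A u) :
    PT A (fun a => H527.sub (m a) (v a) (u a)) := by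
  refine PT.all (PT.range hm hmb) (f := fun a t => !(v a).testBit t || (u a).testBit t) ?_
  exact ((PT.testBit (hv.comp PT.fst') PT.snd').not).or (PT.testBit (hu.comp PT.fst') PT.snd')

theorem PT.addP {x y : α → ℕ × ℕ} {s : α → Bool} (hx : PT A x) (hy : PT A y) (hs : PT A s) :
    PT A (fun a => H527.addP (x a) (y a) (s a)) := by
  refine PT.cond hs ?_ ?_
  · exact (PT.add hx.fst hy.fst).pair (PT.add hx.snd hy.snd)
  · exact (PT.add hx.fst hy.snd).pair (PT.add hx.snd hy.fst)

theorem PT.slL {M : α → ℕ} {x : α → List (ℕ × ℕ)} {t : α → Slide} (hM : PT A M) (hMb : PBd M)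
    (hx : PT A x) (ht : PT A t) : PT A (fun a => H527.slL (M a) (x a) (t a)) := by
  refine PT.map (PT.range hM hMb) (f := fun a u => if u = (t a).1 then
    H527.addP ((x a).getD u (0, 0)) ((x a).getD (t a).2.1 (0, 0)) (t a).2.2
    else (x a).getD u (0, 0)) ?_
  have hx' : PT A (fun p : α × ℕ => x p.1) := hx.comp PT.fst'
  have ht' : PT A (fun p : α × ℕ => t p.1) := ht.comp PT.fst'
  have h1 : PT A (fun p : α × ℕ => (x p.1).getD p.2 (0, 0)) :=
    PT.getD hx' PT.snd' (PT.const (0, 0))
  have h2 : PT A (fun p : α × ℕ => (x p.1).getD (t p.1).2.1 (0, 0)) :=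
    PT.getD hx' ht'.snd.fst (PT.const (0, 0))
  exact PT.ite (p := fun p : α × ℕ => p.2 = (t p.1).1) (PT.eqNat PT.snd' ht'.fst)
    (PT.addP h1 h2 ht'.snd.snd) h1

theorem PT.runL {M v : α → ℕ} {l : α → List Slide} (hM : PT A M) (hMb : PBd M) (hv : PT A v)
    (hl : PT A l) : PT A (fun a => H527.runL (M a) (v a) (l a)) := by
  have hi : PT A (fun a => unitL (M a) (v a)) := by
    refine PT.map (PT.range hM hMb) (f := fun a u => if u = v a then ((1 : ℕ), (0 : ℕ))
      else (0, 0)) ?_
    exact PT.ite (p := fun p : α × ℕ => p.2 = v p.1) (PT.eqNat PT.snd' (hv.comp PT.fst'))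
      (PT.const _) (PT.const _)
  have hL : PBd (fun a => (l a).length) := PBd.length hl
  have hB : PBd (fun a => M a * (2 * (3 * ((l a).length + 1) + 1) + 1)) := by fun_prop
  have hMb' : PBd (fun p : α × List (ℕ × ℕ) × Slide => M p.1) := PBd.comp (f := fun p : α × List (ℕ × ℕ) × Slide => p.1) (A := A) hMb PT.fst'
  refine PT.foldl (f := fun a x t => H527.slL (M a) x t) hl hi
    (PT.slL (hM.comp PT.fst') hMb' PT.snd'.fst PT.snd'.snd) hB fun a i => ?_
  change esize (H527.runL (M a) (v a) ((l a).take i)) ≤ _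
  have h1 : ∀ p ∈ H527.runL (M a) (v a) ((l a).take i), esize p ≤ 3 * ((l a).length + 1) + 1 := by
    intro p hp
    have h2 := runL_le _ _ _ p hp
    have h3 : ((l a).take i).length ≤ (l a).length := by rw [List.length_take]; exact min_le_right _ _
    have h4 : ∀ n, n ≤ 2 ^ ((l a).take i).length → esize n ≤ (l a).length + 1 := by
      intro n hn
      refine esize_nat_le (lt_of_le_of_lt hn ?_)
      refine lt_of_le_of_lt (Nat.pow_le_pow_right (by norm_num) h3) ?_
      rw [pow_succ]
      have := Nat.two_pow_pos (l a).length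
      omega
    have h5 := h4 p.1 h2.1
    have h6 := h4 p.2 h2.2
    have h7 : esize p = 2 * esize p.1 + esize p.2 + 1 := esize_pair p.1 p.2
    omega
  refine (esize_list_le h1).trans (Nat.mul_le_mul_right _ ?_)
  rw [runL_length]

theorem PT.chkS {M : α → ℕ} {l : α → List Slide} (hM : PT A M) (hl : PT A l) :
    PT A (fun a => H527.chkS (M a) (l a)) := by
  refine PT.all hl (f := fun a (t : Slide) => decide (t.1 < M a) && decide (t.2.1 < M a) &&
    !decide (t.1 = t.2.1)) ?_
  have hM' : PT A (fun p : α × Slide => M p.1) := hM.comp PT.fst'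
  exact ((PT.lt PT.snd'.fst hM').and (PT.lt PT.snd'.snd.fst hM')).and
    (PT.eqNat PT.snd'.fst PT.snd'.snd.fst).not

theorem PT.chkE {p : α → ℕ × ℕ} {b : α → Bool} (hp : PT A p) (hb : PT A b) :
    PT A (fun a => H527.chkE (p a) (b a)) :=
  PT.eqNat hp.fst (PT.add hp.snd (PT.cond hb (PT.const 1) (PT.const 0)))

theorem PT.chk {M m : α → ℕ} {l : α → List Slide} (hM : PT A M) (hMb : PBd M) (hm : PT A m)
    (hmb : PBd m) (hl : PT A l) : PT A (fun a => H527.chk (M a) (m a) (l a)) := by
  refine (PT.chkS hM hl).and (PT.all (PT.range hM hMb) (f := fun a v =>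
    (List.range (M a)).all fun u => H527.chkE ((H527.runL (M a) v (l a)).getD u (0, 0))
      (H527.sub (m a) v u)) ?_)
  have hMb' : PBd (fun p : α × ℕ => M p.1) := PBd.comp (f := fun p : α × ℕ => p.1) (A := A) hMb PT.fst'
  refine PT.all (PT.range (hM.comp PT.fst') hMb') (f := fun (p : α × ℕ) u =>
    H527.chkE ((H527.runL (M p.1) p.2 (l p.1)).getD u (0, 0)) (H527.sub (m p.1) p.2 u)) ?_
  have hMb2 : PBd (fun p : (α × ℕ) × ℕ => M p.1.1) :=
    PBd.comp (f := fun p : (α × ℕ) × ℕ => p.1.1) (A := A) hMb PT.fst'.fst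
  have hmb2 : PBd (fun p : (α × ℕ) × ℕ => m p.1.1) :=
    PBd.comp (f := fun p : (α × ℕ) × ℕ => p.1.1) (A := A) hmb PT.fst'.fst
  refine PT.chkE (PT.getD (PT.runL (hM.comp PT.fst'.fst) hMb2 PT.fst'.snd (hl.comp PT.fst'.fst))
    PT.snd' (PT.const (0, 0))) (PT.sub (hm.comp PT.fst'.fst) hmb2 PT.fst'.snd PT.snd')

theorem PT.okc {d c : α → ℕ} (hd : PT A d) (hdb : PBd d) (hc : PT A c) :
    PT A (fun a => H527.okc (d a) (c a)) := by
  have hp : PT A (fun a => 2 ^ (H527.dec (c a)).1) :=
    PT.pow (PT.const 2) (PT.dec hc).fst (PBd.dec1 hc)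
  refine (PT.lt (PT.const 0) (PT.dec hc).fst).and ((PT.le hp hd).and ?_)
  exact PT.chk (PT.min hp hd) (hdb.mono fun a => min_le_right _ _) (PT.dec hc).fst (PBd.dec1 hc)
    (PT.dec hc).snd

theorem PT.prg {d c : α → ℕ} (hd : PT A d) (hdb : PBd d) (hc : PT A c) :
    PT A (fun a => H527.prg (d a) (c a)) :=
  PT.cond (PT.okc hd hdb hc) (PT.dec hc) (PT.const (1, [(1, 0, true)]))

theorem prg_fst_le (d c : ℕ) : (prg d c).1 ≤ Nat.size c + 1 := by
  rw [prg]
  cases H527.okc d c
  · simp
  · rw [cond_true]; exact (dec_fst_le c).trans (Nat.le_succ _)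

theorem PBd.prg1 {d c : α → ℕ} (hc : PT A c) : PBd (fun a => (H527.prg (d a) (c a)).1) :=
  (hc.pbd.add (PBd.const 1)).mono fun a => by rw [esize_nat]; exact prg_fst_le _ _

theorem PT.better {d c s : α → ℕ} (hd : PT A d) (hdb : PBd d) (hc : PT A c) (hs : PT A s) :
    PT A (fun a => H527.better (d a) (c a) (s a)) := by
  have h1 := PT.prg hd hdb hc
  have h2 := PT.prg hd hdb hs
  have p1 : PT A (fun a => 2 ^ (H527.prg (d a) (c a)).1) :=
    PT.pow (PT.const 2) h1.fst (PBd.prg1 hc)
  have p2 : PT A (fun a => 2 ^ (H527.prg (d a) (s a)).1) :=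
    PT.pow (PT.const 2) h2.fst (PBd.prg1 hs)
  exact PT.lt (PT.mul (PT.length h1.snd) (PT.mul h2.fst p2))
    (PT.mul (PT.length h2.snd) (PT.mul h1.fst p1))

theorem PT.bcode {d : α → ℕ} (hd : PT A d) (hdb : PBd d) :
    PT A (fun a => H527.bcode (d a) (d a)) := by
  have hdb' : PBd (fun p : α × ℕ × ℕ => d p.1) :=
    PBd.comp (f := fun p : α × ℕ × ℕ => p.1) (A := A) hdb PT.fst'
  refine PT.foldl (f := fun a s c => if H527.better (d a) c s = true then c else s)
    (PT.range hd hdb) (PT.const 0) ?_ (b := fun a => Vale.Agent.Lib.PolyTime.esize (d a)) hd.pbd fun a i => ?_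
  · refine PT.ite (p := fun p : α × ℕ × ℕ => H527.better (d p.1) p.2.2 p.2.1 = true)
      ((PT.better (hd.comp PT.fst') hdb' PT.snd'.snd PT.snd'.fst).congr fun p => by simp)
      PT.snd'.snd PT.snd'.fst
  · have e : (List.range (d a)).take i = List.range (min i (d a)) := by
      rw [List.take_range]
    rw [e]
    change Vale.Agent.Lib.PolyTime.esize (H527.bcode (d a) (min i (d a))) ≤ _
    exact esize_nat_mono ((bcode_le _ _).trans (min_le_right _ _))

/-- The choice of the program is computable in polynomial time (in a polynomially bounded `d`). -/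
theorem PT.best {d : α → ℕ} (hd : PT A d) (hdb : PBd d) : PT A (fun a => H527.best (d a)) :=
  PT.prg hd hdb (PT.bcode hd hdb)

end Vale.Agent.P338.R3.H527
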