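import Vale.Agent.Lib.PolyTime.Lists3
import Vale.Agent.Lib.PolyTime.Lists2
import Vale.Agent.Lib.PolyTime.Bitwise
import Vale.Agent.Lib.PolyTime.NatArith2

/-!
P338-D, module SEARCH (TM-free part): short slide programs for the zeta transform on `2 ^ m`
cells, a code of programs by natural numbers, a decidable check, and the choice `best d` of the
best valid program among the codes `< d`.
-/

namespace Vale.Agent.P338.R3.H527

open Vale.Agent.Lib.PolyTime

/-- A slide `x i := x i ± x j` (`true` = plus) on arrays indexed by numbers: `(i, j, sign)`. -/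
abbrev Slide := ℕ × ℕ × Bool

section Run

variable {G : Type*} [AddCommGroup G]

/-- `± g` -/
def sg (b : Bool) (g : G) : G := bif b then g else -g

/-- Apply one slide. -/
def sl (x : ℕ → G) (t : Slide) : ℕ → G :=
  Function.update x t.1 (x t.1 + sg t.2.2 (x t.2.1))

/-- Run a list of slides, from left to right. -/
def runS (l : List Slide) (x : ℕ → G) : ℕ → G := l.foldl sl x

@[simp] theorem runS_nil (x : ℕ → G) : runS [] x = x := rfl
@[simp] theorem runS_cons (t : Slide) (l : List Slide) (x : ℕ → G) :
    runS (t :: l) x = runS l (sl x t) := rfl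
theorem runS_append (l l' : List Slide) (x : ℕ → G) :
    runS (l ++ l') x = runS l' (runS l x) := by simp [runS, List.foldl_append]
theorem runS_snoc (l : List Slide) (t : Slide) (x : ℕ → G) :
    runS (l ++ [t]) x = sl (runS l x) t := by simp [runS, List.foldl_append]

end Run

/-- The digits of `v` below `m` are digits of `u`. -/
def sub (m v u : ℕ) : Bool := (List.range m).all fun t => !v.testBit t || u.testBit t

theorem sub_iff {m v u : ℕ} : sub m v u = true ↔ ∀ t < m, v.testBit t = true → u.testBit t = true := by
  simp only [sub, List.all_eq_true, List.mem_range, Bool.or_eq_true, Bool.not_eq_true']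
  refine forall_congr' fun t => forall_congr' fun _ => ?_
  cases v.testBit t <;> simp

/-- A valid slide program for the zeta transform on `m` binary digits. -/
structure Good (m : ℕ) (l : List Slide) : Prop where
  pos : 0 < m
  rng : ∀ t ∈ l, t.1 < 2 ^ m ∧ t.2.1 < 2 ^ m ∧ t.1 ≠ t.2.1
  zeta : ∀ v < 2 ^ m, ∀ u < 2 ^ m,
    runS l (Pi.single v (1 : ℤ)) u = if sub m v u then 1 else 0

/-! ### Semantics over any additive commutative group -/

section Sem

variable {G : Type*} [AddCommGroup G]

theorem runS_of_ge {m : ℕ} {l : List Slide}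
    (h : ∀ t ∈ l, t.1 < 2 ^ m ∧ t.2.1 < 2 ^ m ∧ t.1 ≠ t.2.1) (x : ℕ → G) {u : ℕ}
    (hu : 2 ^ m ≤ u) : runS l x u = x u := by
  induction l generalizing x with
  | nil => rfl
  | cons t l ih =>
    rw [runS_cons, ih (fun s hs => h s (List.mem_cons_of_mem _ hs))]
    have := (h t List.mem_cons_self).1
    rw [sl, Function.update_of_ne (by omega)]

theorem runS_lin {m : ℕ} {l : List Slide}
    (h : ∀ t ∈ l, t.1 < 2 ^ m ∧ t.2.1 < 2 ^ m ∧ t.1 ≠ t.2.1) (x : ℕ → G) {u : ℕ}
    (hu : u < 2 ^ m) :
    runS l x u = ∑ v ∈ Finset.range (2 ^ m), runS l (Pi.single v (1 : ℤ)) u • x v := by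
  induction l using List.reverseRecOn generalizing u with
  | nil =>
    rw [runS_nil, Finset.sum_eq_single u]
    · simp
    · intro v _ hv
      rw [runS_nil, Pi.single_eq_of_ne (Ne.symm hv), zero_smul]
    · intro h1
      exact absurd (Finset.mem_range.2 hu) h1
  | append_singleton l t ih =>
    have hl : ∀ s ∈ l, s.1 < 2 ^ m ∧ s.2.1 < 2 ^ m ∧ s.1 ≠ s.2.1 := fun s hs =>
      h s (List.mem_append_left _ hs)
    have ht := h t (by simp)
    have e : ∀ v, runS (l ++ [t]) (Pi.single v (1 : ℤ)) u • x v =
        (sl (runS l (Pi.single v (1 : ℤ))) t u) • x v := fun v => by rw [runS_snoc]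
    rw [runS_snoc, Finset.sum_congr rfl fun v _ => e v]
    by_cases hut : u = t.1
    · subst hut
      simp only [sl, Function.update_self]
      rw [ih hl ht.1, ih hl ht.2.1]
      simp only [add_smul]
      rw [Finset.sum_add_distrib]
      congr 1
      cases t.2.2
      · simp only [sg, cond_false, neg_smul, Finset.sum_neg_distrib]
      · simp only [sg, cond_true]
    · simp only [sl, Function.update_of_ne hut]
      exact ih hl hu

/-- A valid program computes the zeta transform of arrays with entries in any additive
commutative group. -/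
theorem Good.runS_eq {m : ℕ} {l : List Slide} (h : Good m l) (x : ℕ → G) {u : ℕ}
    (hu : u < 2 ^ m) :
    runS l x u = ∑ v ∈ (Finset.range (2 ^ m)).filter (fun v => sub m v u = true), x v := by
  rw [runS_lin h.rng x hu, Finset.sum_filter]
  refine Finset.sum_congr rfl fun v hv => ?_
  rw [h.zeta v (Finset.mem_range.1 hv) u hu]
  split_ifs <;> simp

end Sem

/-- A valid program has at least `2 ^ m - 1` slides. -/
theorem Good.two_pow_le {m : ℕ} {l : List Slide} (h : Good m l) : 2 ^ m ≤ l.length + 1 := by
  classical
  by_contra hc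
  push Not at hc
  have hcard : (l.map (fun t => t.1)).toFinset.card ≤ l.length :=
    (List.toFinset_card_le _).trans (by simp)
  have hex : ∃ u ∈ Finset.Ico 1 (2 ^ m), u ∉ (l.map (fun t => t.1)).toFinset := by
    by_contra hno
    push Not at hno
    have := Finset.card_le_card (s := Finset.Ico 1 (2 ^ m)) (t := (l.map (fun t => t.1)).toFinset)
      (fun u hu => hno u hu)
    rw [Nat.card_Ico] at this
    omega
  obtain ⟨u, hu, hul⟩ := hex
  rw [Finset.mem_Ico] at hu
  have key : ∀ (l : List Slide), u ∉ (l.map (fun t => t.1)).toFinset → ∀ x : ℕ → ℤ,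
      runS l x u = x u := by
    intro l
    induction l with
    | nil => intro _ x; rfl
    | cons t l ih =>
      intro hl x
      simp only [List.map_cons, List.toFinset_cons, Finset.mem_insert, not_or] at hl
      rw [runS_cons, ih hl.2, sl, Function.update_of_ne hl.1]
  have h1 := h.zeta 0 (by positivity) u hu.2
  rw [key l hul, if_pos (sub_iff.2 fun t _ h => by simp at h),
    Pi.single_eq_of_ne (by omega)] at h1
  exact absurd h1 (by norm_num)

/-- The trivial program for one digit. -/
theorem good_one : Good 1 [(1, 0, true)] := by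
  refine ⟨one_pos, by simp, ?_⟩
  intro v hv u hu
  have hv' : v = 0 ∨ v = 1 := by omega
  have hu' : u = 0 ∨ u = 1 := by omega
  rcases hv' with rfl | rfl <;> rcases hu' with rfl | rfl <;>
    simp [runS, sl, sg, sub, Function.update]

end Vale.Agent.P338.R3.H527
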