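import Vale.Agent.P338.R3.H527.Zpass
import Vale.Agent.P338.R3.H313.Micro
import Vale.Agent.P338.R3.H257.Chain

/-!
P338-D, module ZPASS: a zeta step as a list of passes of the machine, on arrays of quadruples.
-/

namespace Vale.Agent.P338.R3.H527

open Vale.Agent.P338.R2.H898 (Zip)
open Vale.Agent.P338.R3.H898 (Act Ex Ex1 aR aL arr arr_congr arr_add)
open Vale.Agent.P338.R3.H968 (DS Cell CPar)
open Vale.Agent.P338.R3.H313 (Sw swIns swLen swM len ev Mc)
open Vale.Agent.P338.R3.H313.Ctl (stepActs reps)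
open Vale.Agent.P338.R3.H651 (sws sw sw1 rv nfull firstAct restAct length_firstAct
  length_restAct)
open Vale.Agent.P338.R3.H282 (upF dnF)
open Vale.Agent.P338.R3.H257 (MArr quad cells)

/-! ### The acts -/

theorem len_sws {tr : Bool} {Q : ℕ × List Slide} {ls : List Bool} {c : Sw}
    (h : c ∈ sws tr Q ls) : c.2.2.2.length = ls.length := by
  have key : ∀ x ∈ Q.2.map (sw Q.1 (firstAct (nfull Q.1 ls) ls)) ++
      [sw1 (restAct (nfull Q.1 ls) ls)], x.2.2.2.length = ls.length := by
    intro x hx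
    rw [List.mem_append, List.mem_map, List.mem_singleton] at hx
    rcases hx with ⟨t, _, rfl⟩ | rfl
    · unfold sw
      split_ifs <;> exact length_firstAct _ _
    · exact length_restAct _ _
  unfold sws at h
  obtain ⟨x, hx, rfl⟩ := List.mem_map.1 h
  cases tr
  · exact key x hx
  · exact key x hx

section acts

variable {P D : Type} (KP : P → ℕ) (cw : P × D × ℕ → List Bool × List Bool)
  (ldv ulv : P × ℕ → Bool)

theorem stepActs_sw (p : P) (c : Sw) :
    stepActs (len KP) (ev KP cw ldv ulv) p (Mc.sw c) = swActs c := rfl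

theorem stepActs_rew (p : P) :
    stepActs (len KP) (ev KP cw ldv ulv) p Mc.rew = List.replicate (4 * 2 ^ KP p) aL := by
  unfold stepActs
  show (List.range 1).flatMap _ = _
  simp [ev, reps, H313.Ctl.rep, H313.mvA, aL, Act.c]

theorem stepActs_adv (p : P) :
    stepActs (len KP) (ev KP cw ldv ulv) p Mc.adv = List.replicate (4 * 2 ^ KP p) aR := by
  unfold stepActs
  show (List.range 1).flatMap _ = _
  simp [ev, reps, H313.Ctl.rep, H313.mvA, aR, Act.c]

theorem swM_acts (p : P) (c : Sw) (h : c.2.2.2.length = KP p + 2) :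
    (swM c).flatMap (stepActs (len KP) (ev KP cw ldv ulv) p) = posActs c := by
  have e : 4 * 2 ^ KP p = swLen c := by
    unfold swLen
    rw [h, pow_add, mul_comm]
    rfl
  unfold swM posActs
  cases c.1.1
  · simp [stepActs_sw, stepActs_adv, e]
  · simp [stepActs_sw, stepActs_rew, e]

/-- The acts of the passes of a zeta step. -/
theorem zs_acts (p : P) (tr : Bool) (Q : ℕ × List Slide) (J : List ℕ) :
    ((sws tr Q (lvC J (KP p))).flatMap swM).flatMap
      (stepActs (len KP) (ev KP cw ldv ulv) p) = zActs tr Q (lvC J (KP p)) := by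
  rw [List.flatMap_assoc]
  unfold zActs
  refine List.flatMap_congr fun c hc => ?_
  exact swM_acts KP cw ldv ulv p c (by rw [len_sws hc]; simp [lvC])

end acts

/-! ### Arrays of quadruples -/

/-- The array of cells. -/
def flatC (F : MArr) (i : ℕ) : Cell := F (i / 4) (decide (i / 2 % 2 = 1)) (decide (i % 2 = 1))

theorem cells_flatC (n : ℕ) (F : MArr) : cells n F = arr (4 * n) (flatC F) := by
  induction n with
  | zero => rfl
  | succ n ih =>
    have h1 : cells (n + 1) F = cells n F ++ quad F n := by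
      unfold cells
      rw [List.range_succ, List.flatMap_append]
      simp
    rw [h1, ih, Nat.mul_succ, arr_add]
    congr 1
    have a0 : 4 * n / 4 = n := by omega
    have a1 : (4 * n + 1) / 4 = n := by omega
    have a2 : (4 * n + 2) / 4 = n := by omega
    have a3 : (4 * n + 3) / 4 = n := by omega
    have b0 : 4 * n / 2 % 2 = 0 := by omega
    have b1 : (4 * n + 1) / 2 % 2 = 0 := by omega
    have b2 : (4 * n + 2) / 2 % 2 = 1 := by omega
    have b3 : (4 * n + 3) / 2 % 2 = 1 := by omega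
    have c0 : 4 * n % 2 = 0 := by omega
    have c1 : (4 * n + 1) % 2 = 1 := by omega
    have c2 : (4 * n + 2) % 2 = 0 := by omega
    have c3 : (4 * n + 3) % 2 = 1 := by omega
    have e : arr 4 (fun i => flatC F (4 * n + i)) =
        [flatC F (4 * n), flatC F (4 * n + 1), flatC F (4 * n + 2), flatC F (4 * n + 3)] := rfl
    rw [e]
    unfold flatC quad
    rw [a0, a1, a2, a3, b0, b1, b2, b3, c0, c1, c2, c3]
    rfl

theorem atL_flatC (D : DS) (n : ℕ) (F : MArr) :
    H257.atL D n F = H898.atL D (4 * n) (flatC F) := by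
  unfold H257.atL H898.atL
  rw [cells_flatC]

theorem testBit_add_two (i b : ℕ) : i.testBit (b + 2) = (i / 4).testBit b := by
  rw [show (4 : ℕ) = 2 ^ 2 by norm_num, Nat.testBit_div_two_pow, add_comm]

theorem flatC_upF (b : ℕ) (F : MArr) : upF (b + 2) (flatC F) = flatC (upF b F) := by
  funext i
  unfold upF flatC
  rw [testBit_add_two]
  cases h : (i / 4).testBit b
  · simp [h]
  · have h1 : 2 ^ b ≤ i / 4 := Nat.ge_two_pow_of_testBit h
    have h2 : 2 ^ (b + 2) = 4 * 2 ^ b := by rw [pow_add]; ring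
    have e1 : (i - 4 * 2 ^ b) / 4 = i / 4 - 2 ^ b := by omega
    have e2 : (i - 4 * 2 ^ b) / 2 % 2 = i / 2 % 2 := by omega
    have e3 : (i - 4 * 2 ^ b) % 2 = i % 2 := by omega
    simp only [h2, e1, e2, e3]
    simp [h]

theorem flatC_dnF (b : ℕ) (F : MArr) : dnF (b + 2) (flatC F) = flatC (dnF b F) := by
  funext i
  unfold dnF flatC
  rw [testBit_add_two]
  cases h : (i / 4).testBit b
  · have h2 : 2 ^ (b + 2) = 4 * 2 ^ b := by rw [pow_add]; ring
    have e1 : (i + 4 * 2 ^ b) / 4 = i / 4 + 2 ^ b := by omega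
    have e2 : (i + 4 * 2 ^ b) / 2 % 2 = i / 2 % 2 := by omega
    have e3 : (i + 4 * 2 ^ b) % 2 = i % 2 := by omega
    simp only [h2, e1, e2, e3]
    simp [h]
  · simp [h]

theorem flatC_foldr_upF (J : List ℕ) (F : MArr) :
    J.foldr (fun b => upF (b + 2)) (flatC F) = flatC (J.foldr upF F) := by
  induction J with
  | nil => rfl
  | cons b J ih => rw [List.foldr_cons, List.foldr_cons, ih, flatC_upF]

theorem flatC_foldr_dnF (J : List ℕ) (F : MArr) :
    J.foldr (fun b => dnF (b + 2)) (flatC F) = flatC (J.foldr dnF F) := by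
  induction J with
  | nil => rfl
  | cons b J ih => rw [List.foldr_cons, List.foldr_cons, ih, flatC_dnF]

/-- **Zeta step `up`** on arrays of quadruples. -/
theorem zchain_up (P : CPar) (D : DS) {Q : ℕ × List Slide} (hg : Good Q.1 Q.2)
    {J : List ℕ} {K : ℕ} (hn : J.Nodup) (hJ : ∀ b ∈ J, b < K) (F : MArr) :
    Ex P (zActs false Q (lvC J K)) (H257.atL D (2 ^ K) F)
      (H257.atL D (2 ^ K) (J.foldr upF F)) := by
  have h := zpass_up P D hg hn hJ (flatC F)
  have e : 2 ^ (K + 2) = 4 * 2 ^ K := by rw [pow_add]; ring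
  rw [e, flatC_foldr_upF] at h
  rw [atL_flatC, atL_flatC]
  exact h

/-- **Zeta step `dn`** on arrays of quadruples. -/
theorem zchain_dn (P : CPar) (D : DS) {Q : ℕ × List Slide} (hg : Good Q.1 Q.2)
    {J : List ℕ} {K : ℕ} (hn : J.Nodup) (hJ : ∀ b ∈ J, b < K) (F : MArr) :
    Ex P (zActs true Q (lvC J K)) (H257.atL D (2 ^ K) F)
      (H257.atL D (2 ^ K) (J.foldr dnF F)) := by
  have h := zpass_dn P D hg hn hJ (flatC F)
  have e : 2 ^ (K + 2) = 4 * 2 ^ K := by rw [pow_add]; ring
  rw [e, flatC_foldr_dnF] at h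
  rw [atL_flatC, atL_flatC]
  exact h

section steps

variable {S C : Type} (KP : S → ℕ) (cw : S × C × ℕ → List Bool × List Bool)
  (ldv ulv : S × ℕ → Bool)

/-- **Zeta step `up`**: the passes of helper313's `stM`. -/
theorem ex_zs_up (P : CPar) (D : DS) {Q : ℕ × List Slide} (hg : Good Q.1 Q.2)
    (p : S) {J : List ℕ} (hn : J.Nodup) (hJ : ∀ b ∈ J, b < KP p) (F : MArr) :
    Ex P (((sws false Q (lvl (J.map (· + 2)) (KP p + 2))).flatMap swM).flatMap
        (stepActs (len KP) (ev KP cw ldv ulv) p))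
      (H257.atL D (2 ^ KP p) F) (H257.atL D (2 ^ KP p) (J.foldr upF F)) := by
  have h := zs_acts KP cw ldv ulv p false Q J
  unfold lvC at h
  rw [h]
  exact zchain_up P D hg hn hJ F

/-- **Zeta step `dn`**: the passes of helper313's `stM`. -/
theorem ex_zs_dn (P : CPar) (D : DS) {Q : ℕ × List Slide} (hg : Good Q.1 Q.2)
    (p : S) {J : List ℕ} (hn : J.Nodup) (hJ : ∀ b ∈ J, b < KP p) (F : MArr) :
    Ex P (((sws true Q (lvl (J.map (· + 2)) (KP p + 2))).flatMap swM).flatMap
        (stepActs (len KP) (ev KP cw ldv ulv) p))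
      (H257.atL D (2 ^ KP p) F) (H257.atL D (2 ^ KP p) (J.foldr dnF F)) := by
  have h := zs_acts KP cw ldv ulv p true Q J
  unfold lvC at h
  rw [h]
  exact zchain_dn P D hg hn hJ F

end steps

end Vale.Agent.P338.R3.H527
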