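import Vale.Agent.P338.R3.H527.Search

/-!
P338-D, module SEARCH: the code of slide programs by natural numbers, the check on lists of pairs
of natural numbers, and their correctness.
-/

namespace Vale.Agent.P338.R3.H527

open Vale.Agent.Lib.PolyTime

/-! ### The check -/

/-- `p - n` -/
def vz (p : ℕ × ℕ) : ℤ := (p.1 : ℤ) - (p.2 : ℤ)

/-- `a ± b` for differences of natural numbers -/
def addP (a b : ℕ × ℕ) (s : Bool) : ℕ × ℕ :=
  bif s then (a.1 + b.1, a.2 + b.2) else (a.1 + b.2, a.2 + b.1)

theorem vz_addP (a b : ℕ × ℕ) (s : Bool) : vz (addP a b s) = vz a + sg s (vz b) := by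
  cases s <;> simp [addP, vz, sg] <;> ring

/-- one slide on a list -/
def slL (M : ℕ) (x : List (ℕ × ℕ)) (t : Slide) : List (ℕ × ℕ) :=
  (List.range M).map fun u => if u = t.1 then addP (x.getD u (0, 0)) (x.getD t.2.1 (0, 0)) t.2.2
    else x.getD u (0, 0)

/-- the unit vector -/
def unitL (M v : ℕ) : List (ℕ × ℕ) := (List.range M).map fun u => if u = v then (1, 0) else (0, 0)

/-- the program on the unit vector -/
def runL (M v : ℕ) (l : List Slide) : List (ℕ × ℕ) := l.foldl (slL M) (unitL M v)

theorem runL_length (M v : ℕ) (l : List Slide) : (runL M v l).length = M := by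
  induction l using List.reverseRecOn with
  | nil => simp [runL, unitL]
  | append_singleton l t _ => simp [runL, List.foldl_append, slL]

theorem runL_snoc (M v : ℕ) (l : List Slide) (t : Slide) :
    runL M v (l ++ [t]) = slL M (runL M v l) t := by simp [runL, List.foldl_append]

theorem getD_map_range {α : Type*} (M u : ℕ) (f : ℕ → α) (d : α) (h : u < M) :
    ((List.range M).map f).getD u d = f u := by
  rw [List.getD_eq_getElem?_getD, List.getElem?_map, List.getElem?_range h]; rfl

theorem runL_getD {M v : ℕ} (hv : v < M) {l : List Slide}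
    (h : ∀ t ∈ l, t.1 < M ∧ t.2.1 < M) {u : ℕ} (hu : u < M) :
    vz ((runL M v l).getD u (0, 0)) = runS l (Pi.single v (1 : ℤ)) u := by
  induction l using List.reverseRecOn generalizing u with
  | nil =>
    rw [runS_nil, runL, List.foldl_nil, unitL, getD_map_range _ _ _ _ hu]
    by_cases e : u = v
    · subst e; simp [vz]
    · rw [if_neg e, Pi.single_eq_of_ne e]; simp [vz]
  | append_singleton l t ih =>
    have hl : ∀ s ∈ l, s.1 < M ∧ s.2.1 < M := fun s hs => h s (List.mem_append_left _ hs)
    have ht := h t (by simp)
    rw [runL_snoc, runS_snoc, slL, getD_map_range _ _ _ _ hu]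
    by_cases e : u = t.1
    · subst e
      rw [if_pos rfl, vz_addP, ih hl ht.1, ih hl ht.2, sl, Function.update_self]
    · rw [if_neg e, ih hl hu, sl, Function.update_of_ne e]

/-- The entries stay small. -/
theorem runL_le (M v : ℕ) (l : List Slide) : ∀ p ∈ runL M v l, p.1 ≤ 2 ^ l.length ∧
    p.2 ≤ 2 ^ l.length := by
  induction l using List.reverseRecOn with
  | nil =>
    intro p hp
    rw [runL, List.foldl_nil, unitL, List.mem_map] at hp
    obtain ⟨u, -, rfl⟩ := hp
    split_ifs <;> simp
  | append_singleton l t ih =>
    have hg : ∀ u, ((runL M v l).getD u (0, 0)).1 ≤ 2 ^ l.length ∧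
        ((runL M v l).getD u (0, 0)).2 ≤ 2 ^ l.length := by
      intro u
      by_cases hu : u < (runL M v l).length
      · have : (runL M v l).getD u (0, 0) ∈ runL M v l := by
          rw [List.getD_eq_getElem _ _ hu]; exact List.getElem_mem hu
        exact ih _ this
      · rw [List.getD_eq_default _ _ (by omega)]; simp
    intro p hp
    rw [runL_snoc, slL, List.mem_map] at hp
    obtain ⟨u, -, rfl⟩ := hp
    have h1 := hg u
    have h2 := hg t.2.1
    have e : 2 ^ (l ++ [t]).length = 2 ^ l.length + 2 ^ l.length := by
      rw [List.length_append, List.length_singleton, pow_succ]; ring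
    rw [e]
    split_ifs
    · cases t.2.2 <;> simp only [addP, cond_true, cond_false] <;> omega
    · omega

/-- entries of slides are in range and different -/
def chkS (M : ℕ) (l : List Slide) : Bool :=
  l.all fun t => decide (t.1 < M) && decide (t.2.1 < M) && !decide (t.1 = t.2.1)

/-- the entry `p` is `1` (if `b`) or `0` -/
def chkE (p : ℕ × ℕ) (b : Bool) : Bool := decide (p.1 = p.2 + bif b then 1 else 0)

/-- the check of a program -/
def chk (M m : ℕ) (l : List Slide) : Bool :=
  chkS M l && ((List.range M).all fun v => (List.range M).all fun u =>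
    chkE ((runL M v l).getD u (0, 0)) (sub m v u))

theorem chkE_iff (p : ℕ × ℕ) (b : Bool) : chkE p b = true ↔ vz p = if b then 1 else 0 := by
  cases b <;> simp [chkE, vz] <;> omega

theorem chk_iff {m : ℕ} (hm : 0 < m) (l : List Slide) : chk (2 ^ m) m l = true ↔ Good m l := by
  constructor
  · intro h
    rw [chk, Bool.and_eq_true] at h
    obtain ⟨h1, h2⟩ := h
    have h1' : ∀ t ∈ l, t.1 < 2 ^ m ∧ t.2.1 < 2 ^ m ∧ t.1 ≠ t.2.1 := by
      intro t ht
      rw [chkS, List.all_eq_true] at h1
      have := h1 t ht
      simp only [Bool.and_eq_true, decide_eq_true_eq, Bool.not_eq_true', decide_eq_false_iff_not]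
        at this
      exact ⟨this.1.1, this.1.2, this.2⟩
    refine ⟨hm, h1', fun v hv u hu => ?_⟩
    rw [List.all_eq_true] at h2
    have h3 := h2 v (List.mem_range.2 hv)
    rw [List.all_eq_true] at h3
    have h4 := h3 u (List.mem_range.2 hu)
    rw [chkE_iff, runL_getD hv (fun t ht => ⟨(h1' t ht).1, (h1' t ht).2.1⟩) hu] at h4
    exact h4
  · intro h
    rw [chk, Bool.and_eq_true]
    constructor
    · rw [chkS, List.all_eq_true]
      intro t ht
      have := h.rng t ht
      simp only [Bool.and_eq_true, decide_eq_true_eq, Bool.not_eq_true', decide_eq_false_iff_not]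
      exact ⟨⟨this.1, this.2.1⟩, this.2.2⟩
    · rw [List.all_eq_true]
      intro v hv
      rw [List.all_eq_true]
      intro u hu
      rw [List.mem_range] at hv hu
      rw [chkE_iff, runL_getD hv (fun t ht => ⟨(h.rng t ht).1, (h.rng t ht).2.1⟩) hu]
      exact h.zeta v hv u hu

/-! ### The code -/

/-- one record: `m` bits, `m` bits, one bit -/
def rec1 (m : ℕ) (r : List Bool) : Slide :=
  (val (r.take m), val ((r.drop m).take m), (r.drop (2 * m)).headD false)

/-- the words behind the code -/
def dw (w : List Bool) : ℕ × List Slide :=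
  let m := (w.takeWhile fun b => b).length
  let r := w.drop (m + 1)
  (m, (List.range (r.length / (2 * m + 1))).map fun t => rec1 m (r.drop (t * (2 * m + 1))))

/-- the decoder -/
def dec (c : ℕ) : ℕ × List Slide := dw c.bits.dropLast

/-- `m` bits of a number -/
def bm (m n : ℕ) : List Bool := (List.range m).map fun t => n.testBit t

theorem bm_length (m n : ℕ) : (bm m n).length = m := by simp [bm]

theorem bm_succ (m n : ℕ) : bm (m + 1) n = n.testBit 0 :: bm m (n / 2) := by
  simp only [bm, List.range_succ_eq_map, List.map_cons, List.map_map]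
  congr 1
  refine List.map_congr_left fun t _ => ?_
  simp [Nat.testBit_succ]

theorem val_bm (m : ℕ) : ∀ n : ℕ, n < 2 ^ m → val (bm m n) = n := by
  induction m with
  | zero => intro n hn; simp at hn; subst hn; rfl
  | succ m ih =>
    intro n hn
    rw [bm_succ, val_cons, ih (n / 2) (by rw [pow_succ] at hn; omega)]
    rw [Nat.testBit_zero]
    rcases Nat.mod_two_eq_zero_or_one n with h | h <;> simp [h] <;> omega

/-- the word of a slide -/
def ws (m : ℕ) (t : Slide) : List Bool := bm m t.1 ++ (bm m t.2.1 ++ [t.2.2])

theorem ws_length (m : ℕ) (t : Slide) : (ws m t).length = 2 * m + 1 := by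
  simp [ws, bm_length]; ring

theorem rec1_ws {m : ℕ} {t : Slide} (h1 : t.1 < 2 ^ m) (h2 : t.2.1 < 2 ^ m) (r : List Bool) :
    rec1 m (ws m t ++ r) = t := by
  have e1 : (ws m t ++ r).take m = bm m t.1 := by
    rw [ws, List.append_assoc, List.take_left' (bm_length _ _)]
  have e2 : (ws m t ++ r).drop m = bm m t.2.1 ++ ([t.2.2] ++ r) := by
    rw [ws, List.append_assoc, List.drop_left' (bm_length _ _), List.append_assoc]
  have e3 : (ws m t ++ r).drop (2 * m) = [t.2.2] ++ r := by
    rw [two_mul, ← List.drop_drop, e2, List.drop_left' (bm_length _ _)]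
  rw [rec1, e1, e2, e3, List.take_left' (bm_length _ _), val_bm _ _ h1, val_bm _ _ h2]
  rfl

theorem flat_length (m : ℕ) (l : List Slide) :
    (l.flatMap (ws m)).length = l.length * (2 * m + 1) := by
  induction l with
  | nil => simp
  | cons t l ih => rw [List.flatMap_cons, List.length_append, ih, ws_length, List.length_cons]; ring

theorem recs {m : ℕ} (l : List Slide) (h : ∀ t ∈ l, t.1 < 2 ^ m ∧ t.2.1 < 2 ^ m) :
    (List.range l.length).map (fun t => rec1 m ((l.flatMap (ws m)).drop (t * (2 * m + 1)))) =
      l := by
  induction l with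
  | nil => simp
  | cons t l ih =>
    rw [List.length_cons, List.range_succ_eq_map, List.map_cons, List.map_map]
    have ht := h t List.mem_cons_self
    have e0 : rec1 m ((List.flatMap (ws m) (t :: l)).drop (0 * (2 * m + 1))) = t := by
      rw [zero_mul, List.drop_zero, List.flatMap_cons, rec1_ws ht.1 ht.2]
    rw [e0]
    congr 1
    conv_rhs => rw [← ih fun s hs => h s (List.mem_cons_of_mem _ hs)]
    refine List.map_congr_left fun k _ => ?_
    simp only [Function.comp_apply]
    rw [List.flatMap_cons, show (k + 1) * (2 * m + 1) = (ws m t).length + k * (2 * m + 1) by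
      rw [ws_length]; ring, ← List.drop_drop, List.drop_left]

/-- the code of a program -/
def cod (m : ℕ) (l : List Slide) : ℕ :=
  val ((List.replicate m true ++ (false :: l.flatMap (ws m))) ++ [true])

theorem bits_val_append_true (w : List Bool) : (val (w ++ [true])).bits = w ++ [true] := by
  induction w with
  | nil => simp
  | cons b w ih =>
    have hpos : val (w ++ [true]) ≠ 0 := by
      intro h0
      rw [h0] at ih
      simp at ih
    have e : val ((b :: w) ++ [true]) = Nat.bit b (val (w ++ [true])) := by
      rw [List.cons_append, val_cons, Nat.bit_val]; omega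
    rw [e, Nat.bits_append_bit _ _ (fun h => absurd h hpos), ih, List.cons_append]

theorem takeWhile_replicate_true (m : ℕ) (r : List Bool) :
    ((List.replicate m true ++ (false :: r)).takeWhile fun b => b) = List.replicate m true := by
  induction m with
  | zero => simp
  | succ m ih => rw [List.replicate_succ, List.cons_append, List.takeWhile_cons]; simp [ih]

theorem dec_cod {m : ℕ} {l : List Slide} (h : ∀ t ∈ l, t.1 < 2 ^ m ∧ t.2.1 < 2 ^ m) :
    dec (cod m l) = (m, l) := by
  have e : (cod m l).bits.dropLast = List.replicate m true ++ (false :: l.flatMap (ws m)) := by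
    rw [cod, bits_val_append_true, List.dropLast_concat]
  rw [dec, e, dw]
  simp only [takeWhile_replicate_true, List.length_replicate]
  have e2 : (List.replicate m true ++ (false :: l.flatMap (ws m))).drop (m + 1) =
      l.flatMap (ws m) := by
    rw [← List.drop_drop, List.drop_left' (List.length_replicate ..)]; rfl
  rw [e2, flat_length, Nat.mul_div_cancel _ (by omega), recs l h]

/-- sizes of decoded programs -/
theorem dec_fst_le (c : ℕ) : (dec c).1 ≤ Nat.size c := by
  rw [dec, dw, ← Nat.size_eq_bits_len]
  simp only
  have h1 := (List.takeWhile_prefix (fun b => b) (l := c.bits.dropLast)).length_le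
  have h2 : c.bits.dropLast.length ≤ c.bits.length := by simp
  exact h1.trans h2

theorem dec_length_le (c : ℕ) : (dec c).2.length ≤ Nat.size c := by
  rw [dec, dw, ← Nat.size_eq_bits_len]
  simp only [List.length_map, List.length_range, List.length_drop, List.length_dropLast]
  refine (Nat.div_le_self _ _).trans ?_
  omega

end Vale.Agent.P338.R3.H527
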