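import Vale.Agent.P338.R3.H282.Step

/-!
P338-D: the bit positions of a step of the schedule are pairwise different.
-/

namespace Vale.Agent.P338.R3.H527

open Vale.Agent.P338.R3.H282

variable {δ : Type}

/-- The positions of a step are pairwise different. -/
def StNd : St δ → Prop
  | .dn J => J.Nodup
  | .up J => J.Nodup
  | .dg _ => True

theorem bp_inj (G : Geo) (t : ℕ) : Function.Injective (G.bp t) := by
  intro i j h
  unfold Geo.bp at h
  split_ifs at h with ht
  · have h1 : G.a * i = G.a * j := by omega
    exact Nat.eq_of_mul_eq_mul_left (by omega) h1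
  · omega

theorem stNd_lk (G : Geo) {J : List ℕ} (hJ : J.Nodup) (l : Ly δ) : StNd (G.lk J l) := by
  cases l with
  | dn t => exact hJ.map (bp_inj G t)
  | up t => exact hJ.map (bp_inj G t)
  | dg c => trivial

theorem stNd_W (G : Geo) (prog : List (Ly δ)) {J : List ℕ} (hJ : J.Nodup) :
    ∀ st ∈ G.W prog J, StNd st := by
  intro st hst
  obtain ⟨l, _, rfl⟩ := List.mem_map.1 hst
  exact stNd_lk G hJ l

theorem nodup_posJ (G : Geo) (p : ℕ) : (G.posJ p).Nodup := List.nodup_range.filter _

theorem nodup_grpJ (G : Geo) (g : ℕ) : (G.grpJ g).Nodup := List.nodup_range.filter _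

theorem stNd_selF (G : Geo) (i : ℕ) : ∀ st ∈ G.selF (δ := δ) i, StNd st := by
  intro st hst
  simp only [Geo.selF, List.mem_cons, List.not_mem_nil, or_false] at hst
  rcases hst with rfl | rfl | rfl | rfl
  · exact List.nodup_singleton _
  · trivial
  · exact List.nodup_singleton _
  · trivial

theorem stNd_selI (G : Geo) (i : ℕ) : ∀ st ∈ G.selI (δ := δ) i, StNd st := by
  intro st hst
  simp only [Geo.selI, List.mem_cons, List.not_mem_nil, or_false] at hst
  rcases hst with rfl | rfl | rfl | rfl
  · trivial
  · exact List.nodup_singleton _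
  · trivial
  · exact List.nodup_singleton _

theorem stNd_stA (G : Geo) (prog : List (Ly δ)) (neg : Bool) (p : ℕ) :
    ∀ st ∈ G.stA prog neg p, StNd st := by
  intro st hst
  simp only [Geo.stA, List.mem_append, List.mem_cons] at hst
  rcases hst with h | rfl | h
  · exact stNd_W G prog (nodup_posJ G p) st h
  · trivial
  · exact stNd_W G prog (nodup_posJ G p) st h

theorem stNd_stB (G : Geo) (prog : List (Ly δ)) (neg : Bool) (g : ℕ) :
    ∀ st ∈ G.stB prog neg g, StNd st := by
  intro st hst
  simp only [Geo.stB, List.mem_append, List.mem_cons] at hst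
  rcases hst with h | rfl | h
  · exact stNd_W G prog (nodup_grpJ G g) st h
  · trivial
  · exact stNd_W G prog (nodup_grpJ G g) st h

/-- The positions of every step of the forward schedule are pairwise different. -/
theorem stNd_fwd (G : Geo) (prog : List (Ly δ)) : ∀ st ∈ G.fwd prog, StNd st := by
  intro st hst
  simp only [Geo.fwd, List.mem_append, List.mem_flatMap] at hst
  rcases hst with ⟨i, _, h⟩ | ⟨p, _, h⟩ | ⟨g, _, h⟩ | h
  · exact stNd_selF G i st h
  · exact stNd_stA G prog false p st h
  · exact stNd_stB G prog false g st h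
  · exact stNd_W G prog List.nodup_range st h

/-- The positions of every step of the backward schedule are pairwise different. -/
theorem stNd_bwd (G : Geo) (prog : List (Ly δ)) : ∀ st ∈ G.bwd prog, StNd st := by
  intro st hst
  simp only [Geo.bwd, List.mem_append, List.mem_cons, List.mem_flatMap] at hst
  rcases hst with rfl | h | ⟨g, _, h⟩ | ⟨p, _, h⟩ | ⟨i, _, h⟩
  · trivial
  · exact stNd_W G prog List.nodup_range st h
  · exact stNd_stB G prog true g st h
  · exact stNd_stA G prog true p st h
  · exact stNd_selI G i st h

end Vale.Agent.P338.R3.H527
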