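import Vale.Agent.P338.R2.H110.Run
import Vale.Agent.P338.R3.H527.Search

/-!
P338-D, module WORD: slides on all chunks at once, composition over a slide program.

Arrays are functions `f : List Bool → G` on words (first bit = most significant); `ls : List Bool`
are the levels (`true` = active); chunks = `m` consecutive active levels.
-/

namespace Vale.Agent.P338.R3.H527

open Vale.Agent.P338.R2.H110 (cur nxt slideAll ok fw ins tab tab_congr)

/-- The first active bits of the word are `b`. -/
def mat : List Bool → List Bool → List Bool → Bool
  | _, [], _ => true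
  | false :: ls, y :: b, _ :: w => mat ls (y :: b) w
  | true :: ls, y :: b, v :: w => (v == y) && mat ls b w
  | _, _, _ => false

/-- Replace the first active bits of the word by `a`. -/
def put : List Bool → List Bool → List Bool → List Bool
  | _, [], w => w
  | false :: ls, x :: a, v :: w => v :: put ls (x :: a) w
  | true :: ls, x :: a, _ :: w => x :: put ls a w
  | _, _, w => w

@[simp] theorem mat_nil (ls w : List Bool) : mat ls [] w = true := by
  cases ls <;> simp [mat]

@[simp] theorem put_nil (ls w : List Bool) : put ls [] w = w := by
  cases ls <;> simp [put]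

@[simp] theorem mat_false (ls b w : List Bool) (v : Bool) : mat (false :: ls) b (v :: w) = mat ls b w := by
  cases b <;> simp [mat]

@[simp] theorem put_false (ls a w : List Bool) (v : Bool) :
    put (false :: ls) a (v :: w) = v :: put ls a w := by
  cases a <;> simp [put]

@[simp] theorem mat_true (ls b w : List Bool) (v y : Bool) :
    mat (true :: ls) (y :: b) (v :: w) = ((v == y) && mat ls b w) := rfl

@[simp] theorem put_true (ls a w : List Bool) (v x : Bool) :
    put (true :: ls) (x :: a) (v :: w) = x :: put ls a w := rfl

theorem length_put : ∀ (ls a w : List Bool), (put ls a w).length = w.length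
  | _, [], w => by simp
  | [], _ :: _, w => by simp [put]
  | _ :: _, _ :: _, [] => by simp [put]
  | false :: ls, x :: a, v :: w => by simp [length_put ls (x :: a) w]
  | true :: ls, x :: a, v :: w => by simp [length_put ls a w]

theorem put_put : ∀ (ls a c w : List Bool), a.length = c.length → put ls a (put ls c w) = put ls a w
  | _, [], c, w, h => by
    obtain rfl : c = [] := List.length_eq_zero_iff.1 h.symm
    simp
  | _, _ :: _, [], _, h => by simp at h
  | [], _ :: _, _ :: _, w, _ => by simp [put]
  | _ :: _, _ :: _, _ :: _, [], _ => by simp [put]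
  | false :: ls, x :: a, y :: c, v :: w, h => by simp [put_put ls (x :: a) (y :: c) w h]
  | true :: ls, x :: a, y :: c, v :: w, h => by
    simp [put_put ls a c w (by simpa using h)]

/-- `b` is found after `b` has been put, if there are enough active levels. -/
theorem mat_put : ∀ (ls b c w : List Bool), w.length = ls.length → c.length ≤ ls.count true →
    b.length = c.length → mat ls b (put ls c w) = (c == b)
  | ls, b, [], w, _, _, h => by
    obtain rfl : b = [] := List.length_eq_zero_iff.1 h
    simp
  | _, [], _ :: _, _, _, _, h => by simp at h
  | [], _ :: _, _ :: _, w, _, h, _ => by simp at h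
  | _ :: _, _ :: _, _ :: _, [], h, _, _ => by simp at h
  | false :: ls, y :: b, x :: c, v :: w, hw, hc, h => by
    rw [put_false, mat_false, mat_put ls (y :: b) (x :: c) w (by simpa using hw) (by simpa using hc) h]
  | true :: ls, y :: b, x :: c, v :: w, hw, hc, h => by
    rw [put_true, mat_true, mat_put ls b c w (by simpa using hw) (by simpa using hc)
      (by simpa using h)]
    rfl

/-- the first `r` active bits of a word -/
def pick : List Bool → ℕ → List Bool → List Bool
  | _, 0, _ => []
  | false :: ls, r + 1, _ :: w => pick ls (r + 1) w
  | true :: ls, r + 1, v :: w => v :: pick ls r w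
  | _, _, _ => []

theorem length_pick : ∀ (ls : List Bool) (r : ℕ) (w : List Bool), w.length = ls.length →
    r ≤ ls.count true → (pick ls r w).length = r
  | _, 0, _, _, _ => by simp [pick]
  | [], r + 1, _, _, h => by simp at h
  | _ :: _, _ + 1, [], h, _ => by simp at h
  | false :: ls, r + 1, v :: w, hw, h => by
    rw [pick]; exact length_pick ls (r + 1) w (by simpa using hw) (by simpa using h)
  | true :: ls, r + 1, v :: w, hw, h => by
    rw [pick, List.length_cons, length_pick ls r w (by simpa using hw) (by simpa using h)]

theorem put_pick : ∀ (ls : List Bool) (r : ℕ) (w : List Bool), put ls (pick ls r w) w = w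
  | _, 0, _ => by simp [pick]
  | [], r + 1, _ => by simp [pick]
  | _ :: _, _ + 1, [] => by simp [pick]
  | false :: ls, r + 1, v :: w => by
    rw [pick, put_false, put_pick ls (r + 1) w]
  | true :: ls, r + 1, v :: w => by
    rw [pick, put_true, put_pick ls r w]

section Ops

variable {α : Type*}

/-- The slide on the present chunk, for any two patterns. -/
def cu (op : α → α → α) (a b ls : List Bool) (f : List Bool → α) (w : List Bool) : α :=
  bif mat ls b w then op (f w) (f (put ls a w)) else f w

theorem ins_eq (op : α → α → α) : ∀ (ls a b : List Bool) (g f : List Bool → α) (w : List Bool),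
    a.length = b.length → a.length ≤ ls.count true → w.length = ls.length →
    ins op ls a b g f w = bif mat ls b w then op (f w) (g (put ls a w)) else f w
  | ls, [], b, g, f, w, h, _, _ => by
    obtain rfl : b = [] := List.length_eq_zero_iff.1 h.symm
    cases ls <;> simp [ins]
  | _, _ :: _, [], _, _, _, h, _, _ => by simp at h
  | [], _ :: _, _ :: _, _, _, _, _, h, _ => by simp at h
  | _ :: _, _ :: _, _ :: _, _, _, [], _, _, h => by simp at h
  | false :: ls, x :: a, y :: b, g, f, v :: w, h, hc, hw => by
    rw [ins, ins_eq op ls (x :: a) (y :: b) _ _ w h (by simpa using hc) (by simpa using hw)]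
    simp
  | true :: ls, x :: a, y :: b, g, f, v :: w, h, hc, hw => by
    rw [ins, ins_eq op ls a b _ _ w (by simpa using h) (by simpa using hc) (by simpa using hw)]
    by_cases e : v = y
    · subst e; simp
    · have e' : (v == y) = false := by simpa using e
      simp [e, e']

theorem cur_eq (op : α → α → α) : ∀ (ls a b : List Bool) (f : List Bool → α) (w : List Bool),
    fw a b → a.length ≤ ls.count true → w.length = ls.length →
    cur op ls a b f w = cu op a b ls f w
  | _, [], _, _, _, h, _, _ => by simp [fw] at h
  | _, _ :: _, [], _, _, h, _, _ => by simp [fw] at h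
  | [], _ :: _, _ :: _, _, _, _, h, _ => by simp at h
  | _ :: _, _ :: _, _ :: _, _, [], _, _, h => by simp at h
  | false :: ls, x :: a, y :: b, f, v :: w, h, hc, hw => by
    rw [cur, cur_eq op ls (x :: a) (y :: b) _ w h (by simpa using hc) (by simpa using hw)]
    simp [cu]
  | true :: ls, x :: a, y :: b, f, v :: w, h, hc, hw => by
    rw [cur]
    by_cases e : x = y
    · subst e
      rw [if_pos rfl]
      have h' : fw a b := by simpa [fw] using h
      by_cases e : v = x
      · subst e
        rw [if_pos rfl, cur_eq op ls a b _ w h' (by simpa using hc) (by simpa using hw)]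
        simp [cu]
      · have e' : (v == x) = false := by simpa using e
        rw [if_neg e]; simp [cu, e']
    · rw [if_neg e]
      have h' : x = false ∧ y = true ∧ a.length = b.length := by
        simpa [fw, e] using h
      obtain ⟨rfl, rfl, hl⟩ := h'
      cases v with
      | false => simp [cu]
      | true =>
        rw [if_neg (by simp), ins_eq op ls a b _ _ w hl (by simpa using hc) (by simpa using hw)]
        simp [cu]

/-- Skip `r` active levels, then apply the chunk operator `C` to all following chunks of `m`
active levels. -/
def nxg (C : List Bool → (List Bool → α) → List Bool → α) (m : ℕ) :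
    List Bool → ℕ → (List Bool → α) → List Bool → α
  | false :: ls, r, f, v :: w => nxg C m ls r (fun w => f (v :: w)) w
  | true :: ls, r, f, v :: w =>
      if r = 1 then nxg C m ls m (C ls (fun w => f (v :: w))) w
      else nxg C m ls (r - 1) (fun w => f (v :: w)) w
  | _, _, f, w => f w

/-- Apply the chunk operator `C` to all chunks. -/
def allg (C : List Bool → (List Bool → α) → List Bool → α) (m : ℕ) (ls : List Bool)
    (f : List Bool → α) : List Bool → α := nxg C m ls m (C ls f)

theorem nxt_eq (op : α → α → α) (a₀ b₀ : List Bool) : ∀ (ls : List Bool) (r : ℕ)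
    (f : List Bool → α), nxt op a₀ b₀ ls r f =
      nxg (fun ls f => cur op ls a₀ b₀ f) a₀.length ls r f
  | [], r, f => by funext w; cases w <;> simp [nxt, nxg]
  | false :: ls, r, f => by
    funext w
    cases w with
    | nil => simp [nxt, nxg]
    | cons v w => rw [nxt, nxg, nxt_eq op a₀ b₀ ls r]
  | true :: ls, r, f => by
    funext w
    cases w with
    | nil => simp [nxt, nxg]
    | cons v w =>
      rw [nxt, nxg, nxt_eq op a₀ b₀ ls, nxt_eq op a₀ b₀ ls]

theorem slideAll_eq (op : α → α → α) (a₀ b₀ ls : List Bool) (f : List Bool → α) :
    slideAll op a₀ b₀ ls f = allg (fun ls f => cur op ls a₀ b₀ f) a₀.length ls f := by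
  rw [slideAll, nxt_eq, allg]

/-- the chunk operator depends only on words of the right length -/
def Cgr (C : List Bool → (List Bool → α) → List Bool → α) : Prop :=
  ∀ ls f g, (∀ w, w.length = ls.length → f w = g w) →
    ∀ w, w.length = ls.length → C ls f w = C ls g w

theorem nxg_congr' {C C' : List Bool → (List Bool → α) → List Bool → α} {m : ℕ}
    (hC : ∀ ls f g, ok m ls m → (∀ w, w.length = ls.length → f w = g w) →
      ∀ w, w.length = ls.length → C ls f w = C' ls g w) :
    ∀ (ls : List Bool) (r : ℕ) (f g : List Bool → α), ok m ls r →
      (∀ w, w.length = ls.length → f w = g w) →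
      ∀ w, w.length = ls.length → nxg C m ls r f w = nxg C' m ls r g w
  | [], r, f, g, _, h, w, hw => by
    obtain rfl : w = [] := List.length_eq_zero_iff.1 hw
    simp [nxg, h]
  | _ :: _, r, f, g, _, h, [], hw => by simp at hw
  | false :: ls, r, f, g, ho, h, v :: w, hw => by
    rw [nxg, nxg]
    exact nxg_congr' hC ls r _ _ ho (fun w hw' => h _ (by simpa using hw')) w (by simpa using hw)
  | true :: ls, r, f, g, ho, h, v :: w, hw => by
    rw [nxg, nxg]
    have hw' : w.length = ls.length := by simpa using hw
    have hf : ∀ w, w.length = ls.length → f (v :: w) = g (v :: w) := fun w hw' =>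
      h _ (by simpa using hw')
    by_cases hr : r = 1
    · rw [if_pos hr, if_pos hr]
      have ho' : ok m ls m := by simpa [ok, hr] using ho
      exact nxg_congr' hC ls m _ _ ho' (hC ls _ _ ho' hf) w hw'
    · rw [if_neg hr, if_neg hr]
      have ho' : ok m ls (r - 1) := by simpa [ok, hr] using ho
      exact nxg_congr' hC ls (r - 1) _ _ ho' hf w hw'

theorem ok_count {m : ℕ} : ∀ (ls : List Bool) (r : ℕ), ok m ls r → r ≤ m →
    (r = m ∧ ls.count true = 0) ∨ r ≤ ls.count true
  | [], r, h, _ => by left; exact ⟨h, rfl⟩
  | false :: ls, r, h, hr => by
    have := ok_count ls r h hr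
    simpa using this
  | true :: ls, r, h, hr => by
    right
    rw [List.count_cons_self]
    by_cases h1 : r = 1
    · omega
    · have h' : ok m ls (r - 1) := by simpa [ok, h1] using h
      rcases ok_count ls (r - 1) h' (by omega) with h2 | h2
      · omega
      · omega

theorem mat_of_count_zero : ∀ (ls : List Bool) (b w : List Bool), b ≠ [] → ls.count true = 0 →
    mat ls b w = false
  | [], [], _, h, _ => absurd rfl h
  | [], _ :: _, w, _, _ => by cases w <;> simp [mat]
  | _ :: _, [], _, h, _ => absurd rfl h
  | _ :: _, _ :: _, [], _, _ => by simp [mat]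
  | false :: ls, y :: b, v :: w, h, hc => by
    rw [mat_false]; exact mat_of_count_zero ls _ w h (by simpa using hc)
  | true :: ls, y :: b, v :: w, h, hc => by simp at hc

theorem cur_of_count_zero (op : α → α → α) : ∀ (ls : List Bool) (a b : List Bool)
    (f : List Bool → α) (w : List Bool), ls.count true = 0 → cur op ls a b f w = f w
  | [], a, b, f, w, _ => by simp [cur]
  | false :: ls, a, b, f, [], _ => by simp [cur]
  | false :: ls, a, b, f, v :: w, h => by
    rw [cur, cur_of_count_zero op ls a b _ w (by simpa using h)]
  | true :: ls, _, _, _, _, h => by simp at h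

theorem cur_eq' (op : α → α → α) {m : ℕ} {a b ls : List Bool} (hm : a.length = m) (h : fw a b)
    (ho : ok m ls m) (f : List Bool → α) (w : List Bool) (hw : w.length = ls.length) :
    cur op ls a b f w = cu op a b ls f w := by
  rcases ok_count ls m ho le_rfl with h1 | h1
  · have hb : b ≠ [] := by
      intro hb
      have := fw.length_eq h
      rw [hb, List.length_nil, List.length_eq_zero_iff] at this
      exact fw.ne_nil h this
    rw [cur_of_count_zero op ls a b f w h1.2, cu, mat_of_count_zero ls b w hb h1.2, cond_false]
  · exact cur_eq op ls a b f w h (by omega) hw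

theorem cu_cgr (op : α → α → α) (a b : List Bool) : Cgr (cu op a b) := by
  intro ls f g h w hw
  rw [cu, cu, h w hw, h (put ls a w) (by rw [length_put, hw])]

/-- Helper110's slide on all chunks, in relation-free form. -/
theorem slideAll_eq_allg (op : α → α → α) {a b ls : List Bool} (h : fw a b)
    (ho : ok a.length ls a.length) (f : List Bool → α) (w : List Bool)
    (hw : w.length = ls.length) :
    slideAll op a b ls f w = allg (cu op a b) a.length ls f w := by
  rw [slideAll_eq, allg, allg]
  refine nxg_congr' (fun ls f g ho' hfg w hw => ?_) ls _ _ _ ho ?_ w hw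
  · rw [cur_eq' op rfl h ho' f w hw]
    exact cu_cgr op a b ls f g hfg w hw
  · intro w hw
    exact cur_eq' op rfl h ho f w hw

theorem nxg_id {m : ℕ} : ∀ (ls : List Bool) (r : ℕ) (f : List Bool → α),
    nxg (fun _ f => f) m ls r f = f
  | [], r, f => by funext w; cases w <;> simp [nxg]
  | _ :: _, r, f => by
    funext w
    rename_i v0 ls
    cases w with
    | nil => cases v0 <;> simp [nxg]
    | cons v w =>
      cases v0
      · rw [nxg, nxg_id ls]
      · rw [nxg, nxg_id ls, nxg_id ls]; simp

end Ops

/-! ### Linear operators -/

section Lin

variable {G : Type*} [AddCommGroup G]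

/-- `x ± y` -/
def opS (s : Bool) (x y : G) : G := x + sg s y

/-- linearity of a chunk operator -/
def Lin (C : List Bool → (List Bool → G) → List Bool → G) : Prop :=
  ∀ ls s f g, C ls (fun w => f w + sg s (g w)) = fun w => C ls f w + sg s (C ls g w)

theorem sg_add (s : Bool) (x y : G) : sg s (x + y) = sg s x + sg s y := by
  cases s <;> simp [sg, add_comm]

theorem sg_comm (s t : Bool) (x : G) : sg s (sg t x) = sg t (sg s x) := by
  cases s <;> cases t <;> simp [sg]

theorem cu_lin (s : Bool) (a b : List Bool) : Lin (G := G) (cu (opS s) a b) := by
  intro ls t f g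
  funext w
  simp only [cu, opS]
  cases mat ls b w
  · simp
  · simp only [cond_true]
    rw [sg_add, sg_add, sg_comm]
    abel

theorem nxg_lin {C : List Bool → (List Bool → G) → List Bool → G} (hC : Lin C) {m : ℕ} :
    ∀ (ls : List Bool) (r : ℕ) (s : Bool) (f g : List Bool → G),
      nxg C m ls r (fun w => f w + sg s (g w)) = fun w => nxg C m ls r f w + sg s (nxg C m ls r g w)
  | [], r, s, f, g => by funext w; cases w <;> simp [nxg]
  | v0 :: ls, r, s, f, g => by
    funext w
    cases w with
    | nil => cases v0 <;> simp [nxg]
    | cons v w =>
      cases v0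
      · rw [nxg, nxg, nxg, nxg_lin hC ls r s]
      · rw [nxg, nxg, nxg]
        by_cases hr : r = 1
        · rw [if_pos hr, if_pos hr, if_pos hr, hC ls s, nxg_lin hC ls m s]
        · rw [if_neg hr, if_neg hr, if_neg hr, nxg_lin hC ls (r - 1) s]

/-- Chunk operators on later chunks commute with a slide on the present chunk. -/
theorem nxg_cu {C : List Bool → (List Bool → G) → List Bool → G} (hC : Lin C) {m : ℕ} (s : Bool) :
    ∀ (ls a b : List Bool) (f g : List Bool → G) (w : List Bool), a.length = b.length →
      a ≠ [] → a.length ≤ ls.count true → w.length = ls.length →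
      nxg C m ls a.length (fun w => bif mat ls b w then f w + sg s (g (put ls a w)) else f w) w =
        bif mat ls b w then nxg C m ls a.length f w + sg s (nxg C m ls a.length g (put ls a w))
          else nxg C m ls a.length f w
  | _, [], _, _, _, _, _, h, _, _ => absurd rfl h
  | _, _ :: _, [], _, _, _, h, _, _, _ => by simp at h
  | [], _ :: _, _ :: _, _, _, _, _, _, h, _ => by simp at h
  | _ :: _, _ :: _, _ :: _, _, _, [], _, _, _, h => by simp at h
  | false :: ls, x :: a, y :: b, f, g, v :: w, h, hne, hc, hw => by
    have ih := nxg_cu hC (m := m) s ls (x :: a) (y :: b) (fun w => f (v :: w))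
      (fun w => g (v :: w)) w h (by simp) (by simpa using hc) (by simpa using hw)
    simp only [nxg, mat_false, put_false]
    exact ih
  | true :: ls, x :: a, y :: b, f, g, v :: w, h, hne, hc, hw => by
    have hw' : w.length = ls.length := by simpa using hw
    rw [put_true, mat_true]
    rcases a with _ | ⟨x', a⟩
    · obtain rfl : b = [] := by
        cases b with
        | nil => rfl
        | cons _ _ => simp at h
      simp only [nxg, mat_true, put_true, mat_nil, put_nil, List.length_singleton, if_true,
        Bool.and_true]
      by_cases e : v = y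
      · subst e
        simp only [beq_self_eq_true, cond_true]
        rw [hC ls s, nxg_lin hC ls m s]
      · have e' : (v == y) = false := by simpa using e
        simp only [e', cond_false]
    · have hr : (x :: x' :: a).length ≠ 1 := by simp
      have hl : (x :: x' :: a).length - 1 = (x' :: a).length := by simp
      simp only [nxg, mat_true, put_true, if_neg hr, hl]
      by_cases e : v = y
      · subst e
        simp only [beq_self_eq_true, Bool.true_and]
        exact nxg_cu hC s ls (x' :: a) b (fun w => f (v :: w)) (fun w => g (x :: w)) w
          (by simpa using h) (by simp) (by simpa using hc) hw'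
      · have e' : (v == y) = false := by simpa using e
        simp only [e', Bool.false_and, cond_false]

end Lin

end Vale.Agent.P338.R3.H527
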