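import Vale.Agent.P338.R2.H110.SweepEx
import Vale.Agent.P338.R3.H651.ZDef
import Vale.Agent.P338.R3.H898.SweepEx

/-!
P338-D, module ZPASS: the acts of a slide program, started and ended with the head at the left end.
-/

namespace Vale.Agent.P338.R3.H527

open Vale.Agent.P338.R2.H110 (cur nxt slideAll ok fw ins tab tab_congr cpl cpl_cpl length_cpl
  cpl_nil cpl_cons slideD fwD)
open Vale.Agent.P338.R3.H898 (Act Ex Ex1 aR aL arr arr_congr atL atR ex_rewind ex_goR tab_nb
  tab_bw)
open Vale.Agent.P338.R3.H968 (DS Cell CPar cAdd cSub)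
open Vale.Agent.P338.R2.H898 (Zip)
open Vale.Agent.P338.R3.H313 (Sw swIns swLen)

/-- the acts of a sweep -/
def swActs (c : Sw) : List Act := (List.range (swLen c)).flatMap fun u => H313.Ctl.reps (swIns c u)

/-- the array in front of the head (`d = true`) or behind the head -/
def zX (d : Bool) (n : ℕ) (f : List Bool → Cell) : Zip Cell :=
  match d with
  | true => ⟨[], tab n f⟩
  | false => ⟨(tab n f).reverse, []⟩

/-- the words of a sweep in direction `d` -/
def wd (d : Bool) (a : List Bool) : List Bool := bif d then a else cpl a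

/-- One sweep (helper110's `sweepEx`). -/
theorem sw_ex (P : CPar) (D : DS) (d s : Bool) (a b ls : List Bool)
    (f : List Bool → Cell) (h : fwD d a b) (ho : ok a.length ls a.length) :
    Ex P (swActs ((d, s), wd d a, wd d b, ls)) { D with X := zX d ls.length f }
      { D with X := zX (!d) ls.length (slideD (opS s) d a b ls f) } := by
  have h1 := Vale.Agent.P338.R2.H110.sweepEx P D s h ho f [] []
  have e : ∀ (d : Bool) (n : ℕ) (f : List Bool → Cell), Vale.Agent.P338.R2.H110.zds D
      (Vale.Agent.P338.R2.H110.zin d n f [] [] D.A D.B) = { D with X := zX d n f } := by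
    intro d n f
    cases d <;>
      simp [Vale.Agent.P338.R2.H110.zds, Vale.Agent.P338.R2.H110.zin, zX]
  rw [e, e] at h1
  exact h1

/-- The acts of a sweep with the moves of the head to or from the right end. -/
def posActs (c : Sw) : List Act :=
  bif c.1.1 then swActs c ++ List.replicate (swLen c) aL
  else List.replicate (swLen c) aR ++ swActs c

theorem ex_right {P : CPar} {D : DS} {n : ℕ} (f : List Bool → Cell) :
    Ex P (List.replicate (2 ^ n) aR) { D with X := ⟨[], tab n f⟩ }
      { D with X := ⟨(tab n f).reverse, []⟩ } := by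
  have := ex_goR P D (2 ^ n) (fun i => f (bw n i))
  rw [atL, atR, ← tab_bw] at this
  exact this

theorem ex_left {P : CPar} {D : DS} {n : ℕ} (f : List Bool → Cell) :
    Ex P (List.replicate (2 ^ n) aL) { D with X := ⟨(tab n f).reverse, []⟩ }
      { D with X := ⟨[], tab n f⟩ } := by
  have := ex_rewind P D (2 ^ n) (fun i => f (bw n i))
  rw [atL, atR, ← tab_bw] at this
  exact this

theorem pos_ex (P : CPar) (D : DS) {d s : Bool} {a b ls : List Bool}
    (f : List Bool → Cell) (h : fwD d a b) (ho : ok a.length ls a.length) :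
    Ex P (posActs ((d, s), wd d a, wd d b, ls)) { D with X := ⟨[], tab ls.length f⟩ }
      { D with X := ⟨[], tab ls.length (slideD (opS s) d a b ls f)⟩ } := by
  cases d
  · exact (ex_right f).append (sw_ex P D false s a b ls f h ho)
  · exact (sw_ex P D true s a b ls f h ho).append (ex_left _)

/-- The sweep of a slide of a program (`fl`: transposed). -/
def swOf (m : ℕ) (ls : List Bool) (fl : Bool) (t : Slide) : Sw :=
  ((Bool.xor (decide (t.2.1 < t.1)) fl, t.2.2), wd (decide (t.2.1 < t.1)) (bw m t.2.1),
    wd (decide (t.2.1 < t.1)) (bw m t.1), ls)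

/-- The effect of a slide on all chunks (`fl`: transposed). -/
def slF (fl : Bool) (m : ℕ) (ls : List Bool) (f : List Bool → Cell) (t : Slide) :
    List Bool → Cell :=
  bif fl then fun w => allg (cut m t) m ls (fun w => f (cpl w)) (cpl w)
  else allg (cut m t) m ls f

theorem wd_not_cpl (d : Bool) (a : List Bool) : wd (!d) (cpl a) = wd d a := by
  cases d <;> simp [wd]

theorem fwD_not_cpl {d : Bool} {a b : List Bool} (h : fwD d a b) : fwD (!d) (cpl a) (cpl b) := by
  cases d
  · exact h
  · have h' : fw a b := h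
    show fw (cpl (cpl a)) (cpl (cpl b))
    rw [cpl_cpl, cpl_cpl]
    exact h'

theorem slide_ex (P : CPar) (D : DS) {m : ℕ} {ls : List Bool} (fl : Bool)
    {t : Slide} (ht : t.1 < 2 ^ m ∧ t.2.1 < 2 ^ m ∧ t.1 ≠ t.2.1) (ho : ok m ls m)
    (f : List Bool → Cell) :
    Ex P (posActs (swOf m ls fl t)) { D with X := ⟨[], tab ls.length f⟩ }
      { D with X := ⟨[], tab ls.length (slF fl m ls f t)⟩ } := by
  have hd := fwD_of_ne ht.1 ht.2.1 ht.2.2
  cases fl
  · have h1 := pos_ex P D (s := t.2.2) f hd (by simpa using ho)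
    have e1 : tab ls.length (slideD (opS t.2.2) (decide (t.2.1 < t.1)) (bw m t.2.1) (bw m t.1)
        ls f) = tab ls.length (slF false m ls f t) := by
      refine tab_congr fun w hw => ?_
      rw [slideD_eq_allg (opS t.2.2) hd (by simpa using ho) f w hw, length_bw]
      rfl
    rw [e1] at h1
    have e2 : swOf m ls false t = ((decide (t.2.1 < t.1), t.2.2),
        wd (decide (t.2.1 < t.1)) (bw m t.2.1), wd (decide (t.2.1 < t.1)) (bw m t.1), ls) := by
      simp [swOf]
    rw [e2]
    exact h1
  · have h1 := pos_ex P D (s := t.2.2) f (fwD_not_cpl hd) (by simpa using ho)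
    have e1 : tab ls.length (slideD (opS t.2.2) (!decide (t.2.1 < t.1)) (cpl (bw m t.2.1))
        (cpl (bw m t.1)) ls f) = tab ls.length (slF true m ls f t) := by
      refine tab_congr fun w hw => ?_
      rw [slideD_eq_allg (opS t.2.2) (fwD_not_cpl hd) (by simpa using ho) f w hw, length_cpl,
        length_bw]
      have := allg_cpl (opS t.2.2) (bw m t.2.1) (bw m t.1) m ls (fun w => f (cpl w)) (cpl w)
      simp only [cpl_cpl] at this
      rw [this]
      rfl
    rw [e1, wd_not_cpl, wd_not_cpl] at h1
    have e2 : swOf m ls true t = ((!decide (t.2.1 < t.1), t.2.2),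
        wd (decide (t.2.1 < t.1)) (bw m t.2.1), wd (decide (t.2.1 < t.1)) (bw m t.1), ls) := by
      simp [swOf]
    rw [e2]
    exact h1

/-- zeta transform on the active levels (`fl`: transposed) -/
def zF (fl : Bool) (ls : List Bool) (f : List Bool → Cell) : List Bool → Cell :=
  bif fl then fun w => zetaL ls (fun w => f (cpl w)) (cpl w) else zetaL ls f

theorem foldl_slF (m : ℕ) (ls : List Bool) : ∀ (l : List Slide) (f : List Bool → Cell),
    l.foldl (slF true m ls) f = fun w => allp m l ls (fun w => f (cpl w)) (cpl w)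
  | [], f => by funext w; simp [allp]
  | t :: l, f => by
    rw [List.foldl_cons, foldl_slF m ls l]
    funext w
    have e : (fun w => slF true m ls f t (cpl w)) =
        allg (cut m t) m ls fun w => f (cpl w) := by
      funext w
      simp [slF]
    rw [e]
    rfl

/-- The acts of the word of a program. -/
def wordActs (m : ℕ) (l : List Slide) (ls : List Bool) (fl : Bool) : List Act :=
  l.flatMap fun t => posActs (swOf m ls fl t)

theorem word_ex_aux (P : CPar) (D : DS) {m : ℕ} {ls : List Bool} (fl : Bool)
    (ho : ok m ls m) : ∀ (l : List Slide)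
    (_ : ∀ t ∈ l, t.1 < 2 ^ m ∧ t.2.1 < 2 ^ m ∧ t.1 ≠ t.2.1) (f : List Bool → Cell),
    Ex P (wordActs m l ls fl) { D with X := ⟨[], tab ls.length f⟩ }
      { D with X := ⟨[], tab ls.length (l.foldl (slF fl m ls) f)⟩ }
  | [], _, f => .nil _
  | t :: l, hl, f => by
    rw [wordActs, List.flatMap_cons]
    exact (slide_ex P D fl (hl t List.mem_cons_self) ho f).append
      (word_ex_aux P D fl ho l (fun s hs => hl s (List.mem_cons_of_mem _ hs)) _)

/-- **The word of a valid program on the machine is the zeta transform on the active levels.** -/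
theorem word_ex (P : CPar) (D : DS) {m : ℕ} {l : List Slide} (hg : Good m l)
    {ls : List Bool} (fl : Bool) (ho : ok m ls m) (f : List Bool → Cell) :
    Ex P (wordActs m l ls fl) { D with X := ⟨[], tab ls.length f⟩ }
      { D with X := ⟨[], tab ls.length (zF fl ls f)⟩ } := by
  have h1 := word_ex_aux P D fl ho l hg.rng f
  have e : tab ls.length (l.foldl (slF fl m ls) f) = tab ls.length (zF fl ls f) := by
    refine tab_congr fun w hw => ?_
    cases fl
    · exact allp_eq_zetaL hg ho f w hw
    · rw [foldl_slF]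
      exact allp_eq_zetaL hg ho (fun w => f (cpl w)) (cpl w) (by simpa using hw)
  rwa [e] at h1

/-! ### One zeta step -/

open Vale.Agent.P338.R3.H651 (sw sw1 rv sws nfull firstAct restAct zl zl_split ok_firstAct ok_one
  length_firstAct length_restAct)
open Vale.Agent.P338.R3.H282 (upF dnF)

theorem sw_eq (m : ℕ) (ls : List Bool) (t : Slide) : sw m ls t = swOf m ls false t := by
  unfold sw swOf
  by_cases h : t.2.1 < t.1
  · simp [h, wd]
  · simp [h, wd]

theorem rv_sw (m : ℕ) (ls : List Bool) (t : Slide) : rv (sw m ls t) = swOf m ls true t := by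
  unfold sw swOf rv
  by_cases h : t.2.1 < t.1
  · simp [h, wd]
  · simp [h, wd]

theorem sw1_eq (ls : List Bool) : sw1 ls = swOf 1 ls false (1, 0, true) := by
  simp [sw1, swOf, wd, bw]

theorem rv_sw1 (ls : List Bool) : rv (sw1 ls) = swOf 1 ls true (1, 0, true) := by
  simp [sw1, rv, swOf, wd, bw]

/-- the acts of one zeta step (`tr`: transposed) -/
def zActs (tr : Bool) (Q : ℕ × List Slide) (ls : List Bool) : List Act :=
  (sws tr Q ls).flatMap posActs

theorem zActs_eq (tr : Bool) (m : ℕ) (l : List Slide) (ls : List Bool) :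
    zActs tr (m, l) ls = wordActs m l (firstAct (nfull m ls) ls) tr ++
      wordActs 1 [(1, 0, true)] (restAct (nfull m ls) ls) tr := by
  unfold zActs sws wordActs
  rw [List.map_append, List.flatMap_append]
  congr 1
  · rw [List.map_map, List.flatMap_map]
    refine List.flatMap_congr fun t _ => ?_
    cases tr
    · simp [sw_eq]
    · simp [rv_sw]
  · cases tr
    · simp [sw1_eq]
    · simp [rv_sw1]

theorem zetaL_eq_zl {G : Type*} [AddCommGroup G] : ∀ (ls : List Bool) (f : List Bool → G)
    (w : List Bool), zetaL ls f w = zl ls f w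
  | [], f, w => by cases w <;> simp [zetaL]
  | false :: ls, f, [] => by simp [zetaL]
  | true :: ls, f, [] => by simp [zetaL]
  | false :: ls, f, v :: w => by
    rw [zetaL, Vale.Agent.P338.R3.H651.zl_false, zetaL_eq_zl ls _ w]
  | true :: ls, f, false :: w => by
    rw [zetaL, Vale.Agent.P338.R3.H651.zl_true_false, zetaL_eq_zl ls _ w]
  | true :: ls, f, true :: w => by
    rw [zetaL, Vale.Agent.P338.R3.H651.zl_true_true, zetaL_add, zetaL_eq_zl ls _ w,
      zetaL_eq_zl ls _ w, add_comm]

theorem zetaL_split {G : Type*} [AddCommGroup G] (n : ℕ) (ls : List Bool) (f : List Bool → G)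
    (w : List Bool) : zetaL (restAct n ls) (zetaL (firstAct n ls) f) w = zetaL ls f w := by
  rw [zetaL_eq_zl, zetaL_eq_zl ls f w]
  have : zetaL (firstAct n ls) f = zl (firstAct n ls) f := funext fun w => zetaL_eq_zl _ f w
  rw [this, zl_split]

theorem zF_split (tr : Bool) (n : ℕ) (ls : List Bool) (f : List Bool → Cell) (w : List Bool) :
    zF tr (restAct n ls) (zF tr (firstAct n ls) f) w = zF tr ls f w := by
  cases tr
  · exact zetaL_split n ls f w
  · simp only [zF, cond_true, cpl_cpl]
    exact zetaL_split n ls _ _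

/-- **One zeta step on the machine**, words. -/
theorem zstep_ex (P : CPar) (D : DS) {m : ℕ} {l : List Slide} (hg : Good m l)
    (tr : Bool) (ls : List Bool) (f : List Bool → Cell) :
    Ex P (zActs tr (m, l) ls) { D with X := ⟨[], tab ls.length f⟩ }
      { D with X := ⟨[], tab ls.length (zF tr ls f)⟩ } := by
  rw [zActs_eq]
  have h1 := word_ex P D hg (ls := firstAct (nfull m ls) ls) tr
    (ok_firstAct hg.pos _ (Nat.mul_div_le _ _)) f
  have h2 := word_ex P D good_one (ls := restAct (nfull m ls) ls) tr (ok_one _)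
    (zF tr (firstAct (nfull m ls) ls) f)
  rw [length_firstAct] at h1
  rw [length_restAct] at h2
  have e : tab ls.length (zF tr (restAct (nfull m ls) ls) (zF tr (firstAct (nfull m ls) ls) f)) =
      tab ls.length (zF tr ls f) := tab_congr fun w _ => zF_split tr _ ls f w
  rw [e] at h2
  exact h1.append h2

/-- the levels of the array of cells (two low inactive levels) -/
def lvC (J : List ℕ) (K : ℕ) : List Bool := lvl (J.map (· + 2)) (K + 2)

theorem map_add_nodup {J : List ℕ} (hn : J.Nodup) : (J.map (· + 2)).Nodup :=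
  hn.map fun _ _ h => Nat.add_right_cancel h

theorem upG_eq (b : ℕ) (F : ℕ → Cell) : upG b F = upF b F := rfl
theorem dnG_eq (b : ℕ) (F : ℕ → Cell) : dnG b F = dnF b F := rfl

/-- **Zeta pass, `up`**: the acts of one zeta step on the array of cells. -/
theorem zpass_up (P : CPar) (D : DS) {m : ℕ} {l : List Slide} (hg : Good m l)
    {J : List ℕ} {K : ℕ} (hn : J.Nodup) (hJ : ∀ b ∈ J, b < K) (F : ℕ → Cell) :
    Ex P (zActs false (m, l) (lvC J K)) (atL D (2 ^ (K + 2)) F)
      (atL D (2 ^ (K + 2)) (J.foldr (fun b => upF (b + 2)) F)) := by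
  have h := zstep_ex P D hg false (lvC J K) (fun w => F (nb w))
  have e : tab (lvC J K).length (zF false (lvC J K) fun w => F (nb w)) =
      arr (2 ^ (K + 2)) (J.foldr (fun b => upF (b + 2)) F) := by
    rw [← tab_nb]
    rw [show (lvC J K).length = K + 2 by simp [lvC]]
    refine tab_congr fun w hw => ?_
    rw [zF, cond_false, lvC, zetaL_lvl (map_add_nodup hn) (by
      intro b hb
      obtain ⟨c, hc, rfl⟩ := List.mem_map.1 hb
      have := hJ c hc
      omega) F w hw, List.foldr_map]
    rfl
  rw [e, tab_nb, show (lvC J K).length = K + 2 by simp [lvC]] at h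
  exact h

/-- **Zeta pass, `dn`** (transposed). -/
theorem zpass_dn (P : CPar) (D : DS) {m : ℕ} {l : List Slide} (hg : Good m l)
    {J : List ℕ} {K : ℕ} (hn : J.Nodup) (hJ : ∀ b ∈ J, b < K) (F : ℕ → Cell) :
    Ex P (zActs true (m, l) (lvC J K)) (atL D (2 ^ (K + 2)) F)
      (atL D (2 ^ (K + 2)) (J.foldr (fun b => dnF (b + 2)) F)) := by
  have h := zstep_ex P D hg true (lvC J K) (fun w => F (nb w))
  have e : tab (lvC J K).length (zF true (lvC J K) fun w => F (nb w)) =
      arr (2 ^ (K + 2)) (J.foldr (fun b => dnF (b + 2)) F) := by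
    rw [← tab_nb]
    rw [show (lvC J K).length = K + 2 by simp [lvC]]
    refine tab_congr fun w hw => ?_
    rw [zF, cond_true, lvC, zetaL_lvl_dn (map_add_nodup hn) (by
      intro b hb
      obtain ⟨c, hc, rfl⟩ := List.mem_map.1 hb
      have := hJ c hc
      omega) F w hw, List.foldr_map]
    rfl
  rw [e, tab_nb, show (lvC J K).length = K + 2 by simp [lvC]] at h
  exact h

end Vale.Agent.P338.R3.H527
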